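import Vale.Agent.P284.H573.DK.FinRep

/-!
# P284 (helper501): groups whose finite dimensional real representations have finite range

Homomorphisms of subgroups of finite index to `ℝ` vanish (representation of `K` on the functions `f` with
`f (h k) = f k + l φ(h)`).
-/

open Set

noncomputable section

namespace Vale.Agent.P284.H501.T

open Vale.Agent.P284.H894.V Vale.Agent.P284.H573.DK

section
variable {K : Type} [Group K] (L : Subgroup K) (φ : K → ℝ)

/-- the functions with `f (h k) = f k + l φ(h)` for `h ∈ L` -/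
def indV : Submodule ℝ (K → ℝ) where
  carrier := {f | ∃ l : ℝ, ∀ h ∈ L, ∀ k, f (h * k) = f k + l * φ h}
  add_mem' := by
    rintro f g ⟨l, hl⟩ ⟨m, hm⟩
    refine ⟨l + m, fun h hh k => ?_⟩
    simp only [Pi.add_apply]
    rw [hl h hh k, hm h hh k]
    ring
  zero_mem' := ⟨0, fun h _ k => by simp⟩
  smul_mem' := by
    rintro a f ⟨l, hl⟩
    refine ⟨a * l, fun h hh k => ?_⟩
    simp only [Pi.smul_apply, smul_eq_mul]
    rw [hl h hh k]
    ring

/-- representatives of the right cosets -/
def rr (k : K) : K := (Quotient.mk (QuotientGroup.rightRel L) k).out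

theorem rr_mem (k : K) : k * (rr L k)⁻¹ ∈ L := by
  have h := Quotient.mk_out (s := QuotientGroup.rightRel L) k
  exact QuotientGroup.rightRel_apply.1 h

theorem rr_mul {h : K} (hh : h ∈ L) (k : K) : rr L (h * k) = rr L k := by
  unfold rr
  congr 1
  refine Quotient.sound (s := QuotientGroup.rightRel L) ?_
  refine QuotientGroup.rightRel_apply.2 ?_
  have : k * (h * k)⁻¹ = h⁻¹ := by group
  rw [this]
  exact L.inv_mem hh

/-- right translation -/
def indR : K →* (indV L φ →ₗ[ℝ] indV L φ) where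
  toFun g :=
    { toFun := fun f => ⟨fun k => (f : K → ℝ) (k * g), by
        obtain ⟨l, hl⟩ := f.2
        refine ⟨l, fun h hh k => ?_⟩
        show (f : K → ℝ) (h * k * g) = (f : K → ℝ) (k * g) + l * φ h
        rw [mul_assoc]
        exact hl h hh (k * g)⟩
      map_add' := fun f f' => rfl
      map_smul' := fun a f => rfl }
  map_one' := by
    refine LinearMap.ext fun f => Subtype.ext ?_
    funext k
    show (f : K → ℝ) (k * 1) = (f : K → ℝ) k
    rw [mul_one]
  map_mul' g g' := by
    refine LinearMap.ext fun f => Subtype.ext ?_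
    funext k
    show (f : K → ℝ) (k * (g * g')) = (f : K → ℝ) (k * g * g')
    rw [mul_assoc]

/-- homomorphisms of subgroups of finite index to `ℝ` vanish -/
theorem hom_zeroR (hfr : FinRep K) (hL : L.FiniteIndex)
    (hφ : ∀ a ∈ L, ∀ b ∈ L, φ (a * b) = φ a + φ b) {a : K} (ha : a ∈ L) : φ a = 0 := by
  classical
  by_contra hne
  have hfin : Finite (K ⧸ L) := Subgroup.finite_quotient_of_finiteIndex
  have hfin' : Finite (Quotient (QuotientGroup.rightRel L)) :=
    Finite.of_equiv _ (QuotientGroup.quotientRightRelEquivQuotientLeftRel L).symm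
  have hfd : FiniteDimensional ℝ (indV L φ) := by
    let T : (K → ℝ) →ₗ[ℝ] ((Quotient (QuotientGroup.rightRel L) → ℝ) × ℝ) :=
      { toFun := fun f => (fun x => f x.out, f a - f 1)
        map_add' := fun f g => by
          refine Prod.ext (funext fun x => rfl) ?_
          show (f + g) a - (f + g) 1 = (f a - f 1) + (g a - g 1)
          simp only [Pi.add_apply]
          ring
        map_smul' := fun r f => by
          refine Prod.ext (funext fun x => rfl) ?_
          show (r • f) a - (r • f) 1 = r * (f a - f 1)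
          simp only [Pi.smul_apply, smul_eq_mul]
          ring }
    refine Module.Finite.of_injective (T.comp (indV L φ).subtype) ?_
    rw [← LinearMap.ker_eq_bot, LinearMap.ker_eq_bot']
    intro f hf
    obtain ⟨l, hl⟩ := f.2
    have h1 : ∀ x : Quotient (QuotientGroup.rightRel L), (f : K → ℝ) x.out = 0 := fun x =>
      congrFun (congrArg Prod.fst hf) x
    have h2 : (f : K → ℝ) a - (f : K → ℝ) 1 = 0 := congrArg Prod.snd hf
    have h3 : l = 0 := by
      have h4 := hl a ha 1
      rw [mul_one] at h4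
      have h5 : l * φ a = 0 := by linarith
      exact (mul_eq_zero.1 h5).resolve_right hne
    refine Subtype.ext (funext fun k => ?_)
    have h6 := hl (k * (rr L k)⁻¹) (rr_mem L k) (rr L k)
    rw [inv_mul_cancel_right] at h6
    rw [h6, h3, zero_mul, add_zero]
    exact h1 _
  -- the function with `l = 1`
  have hf0 : (fun k => φ (k * (rr L k)⁻¹)) ∈ indV L φ := by
    refine ⟨1, fun h hh k => ?_⟩
    show φ (h * k * (rr L (h * k))⁻¹) = φ (k * (rr L k)⁻¹) + 1 * φ h
    rw [rr_mul L hh, mul_assoc, hφ h hh _ (rr_mem L k)]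
    ring
  set f₀ : indV L φ := ⟨_, hf0⟩ with hf0d
  have h1 : ∀ n : ℕ, φ (a ^ n) = n * φ a := by
    intro n
    induction n with
    | zero =>
      have h := hφ 1 L.one_mem 1 L.one_mem
      rw [mul_one] at h
      simp only [pow_zero, Nat.cast_zero, zero_mul]
      linarith
    | succ n ih =>
      rw [pow_succ, hφ _ (L.pow_mem ha n) _ ha, ih]
      push_cast
      ring
  have h2 : ∀ n : ℕ, ((indR L φ (a ^ n) f₀ : indV L φ) : K → ℝ) 1 =
      (f₀ : K → ℝ) 1 + n * φ a := by
    intro n
    show (f₀ : K → ℝ) (1 * a ^ n) = _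
    have h3 : (f₀ : K → ℝ) (a ^ n * 1) = (f₀ : K → ℝ) 1 + 1 * φ (a ^ n) := by
      show φ (a ^ n * 1 * (rr L (a ^ n * 1))⁻¹) = φ (1 * (rr L 1)⁻¹) + 1 * φ (a ^ n)
      rw [rr_mul L (L.pow_mem ha n), mul_assoc, hφ _ (L.pow_mem ha n) _ (rr_mem L 1)]
      ring
    rw [one_mul]
    rw [mul_one] at h3
    rw [h3, h1]
    ring
  have hinj : Function.Injective fun n : ℕ => indR L φ (a ^ n) := by
    intro n m hnm
    have h3 := h2 n
    have h4 : indR L φ (a ^ n) = indR L φ (a ^ m) := hnm
    rw [h4, h2 m] at h3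
    have h5 : (m : ℝ) * φ a = n * φ a := by linarith
    have h6 := mul_right_cancel₀ hne h5
    exact_mod_cast h6.symm
  have h7 := hfr (indV L φ) (indR L φ)
  exact Set.infinite_of_injective_forall_mem (s := Set.range (indR L φ)) hinj
    (fun n => Set.mem_range_self _) h7

theorem hom_zeroC (hfr : FinRep K) (hL : L.FiniteIndex) (φ : K → ℂ)
    (hφ : ∀ a ∈ L, ∀ b ∈ L, φ (a * b) = φ a + φ b) {a : K} (ha : a ∈ L) : φ a = 0 := by
  refine Complex.ext ?_ ?_
  · exact hom_zeroR L (fun k => (φ k).re) hfr hL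
      (fun a ha b hb => by rw [hφ a ha b hb, Complex.add_re]) ha
  · exact hom_zeroR L (fun k => (φ k).im) hfr hL
      (fun a ha b hb => by rw [hφ a ha b hb, Complex.add_im]) ha

theorem not_virtIndicable (hfr : FinRep K) : ¬ VirtIndicable K := by
  classical
  rintro ⟨L, hL, φ, hφ⟩
  set f : K → ℝ := fun k => if h : k ∈ L then ((Multiplicative.toAdd (φ ⟨k, h⟩) : ℤ) : ℝ) else 0
    with hf
  have hfv : ∀ k (h : k ∈ L), f k = ((Multiplicative.toAdd (φ ⟨k, h⟩) : ℤ) : ℝ) := fun k h => by
    rw [hf]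
    simp only
    rw [dif_pos h]
  obtain ⟨x, hx⟩ := hφ (Multiplicative.ofAdd 1)
  have h1 := hom_zeroR L f hfr hL (fun a ha b hb => by
    rw [hfv _ (L.mul_mem ha hb), hfv a ha, hfv b hb]
    have : φ ⟨a * b, L.mul_mem ha hb⟩ = φ ⟨a, ha⟩ * φ ⟨b, hb⟩ := by
      rw [← map_mul]
      rfl
    rw [this, toAdd_mul]
    push_cast
    rfl) x.2
  rw [hfv _ x.2] at h1
  have h2 : φ ⟨(x : K), x.2⟩ = Multiplicative.ofAdd 1 := hx
  rw [h2] at h1
  norm_num at h1

end

end Vale.Agent.P284.H501.T
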