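import Vale.Agent.P284.H619.NulP
import Vale.Agent.P284.H501.T.Rep

/-!
# P284 (helper501): module NUL (helper619) with `FinRep` in place of amenability

Same proof; the input on the group is only: every finite dimensional real representation of `K` has
finite range, and every subgroup of finite index of `K` acts cocompactly on the fibre.
-/

open scoped Manifold ContDiff Topology InnerProductSpace ComplexConjugate Pointwise
open Filter Set Metric

noncomputable section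

namespace Vale.Agent.P284.H501.T

open Vale.Agent.P272.K Vale.Agent.P284.H894.G Vale.Agent.P284.H894.V Vale.Agent.P284.H894.W
  Vale.Agent.P284.H213.Grp Vale.Agent.P284.H619 Vale.Agent.P284.H573.DK

section
variable {n q : ℕ} {X : Type} [TopologicalSpace X] [ChartedSpace (Cm n) X]
  {E : Type} [TopologicalSpace E] {p : E → X} {F : E → Cm q} {Γ : Type} [Group Γ] [MulAction Γ E]

/-- `K'` acts cocompactly on the fibre -/
theorem exists_compact_fib' [CompactSpace X] [T2Space X] (hG : IsGalois Γ p) (hF : HolE n p F)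
    {c : Γ → Cm q} (hc : ∀ g y, F (g • y) = F y + c g) {K : Subgroup Γ} (hlat : LatChar Γ q c)
    (hfin0 : ∃ A : Set Γ, A.Finite ∧ ∀ g, c g = 0 → ∃ f ∈ A, f⁻¹ * g ∈ K)
    {K' : Subgroup Γ} (hfi : (K'.subgroupOf K).FiniteIndex) (t : Cm q) :
    ∃ D : Set E, IsCompact D ∧ ∀ y : E, F y = t → ∃ k ∈ K', k • y ∈ D := by
  obtain ⟨D, hD, hcov⟩ := exists_compact n hG
  obtain ⟨M, hM⟩ := (hD.image (hF.continuous hG.cov)).isBounded.exists_norm_le
  have hcone : c 1 = 0 := by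
    have := hlat.add 1 1
    rw [mul_one] at this
    simpa using this
  -- finitely many values
  have hfin := hlat.disc (M + ‖t‖)
  obtain ⟨A, hA, hAcov⟩ := hfin0
  have : Finite (K ⧸ K'.subgroupOf K) := Subgroup.finite_quotient_of_finiteIndex
  set V : Set (Cm q) := {v | (∃ g, c g = v) ∧ ‖v‖ ≤ M + ‖t‖} with hV
  have hch : ∀ v : Cm q, ∃ g : Γ, v ∈ V → c g = v := by
    intro v
    by_cases h : v ∈ V
    · obtain ⟨g, hg⟩ := h.1
      exact ⟨g, fun _ => hg⟩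
    · exact ⟨1, fun h' => absurd h' h⟩
  choose gv hgv using hch
  -- finite set of multipliers
  set R : Set Γ := (fun x : (Cm q × Γ) × (K ⧸ K'.subgroupOf K) =>
    (gv x.1.1 * x.1.2 * (x.2.out : Γ))⁻¹) '' ((V ×ˢ A) ×ˢ univ) with hR
  have hRfin : R.Finite := ((hfin.prod hA).prod finite_univ).image _
  refine ⟨⋃ g ∈ R, (fun y => g • y) '' D, hRfin.isCompact_biUnion fun g _ =>
    hD.image (hG.cont g), fun y hy => ?_⟩
  obtain ⟨g, hg⟩ := hcov y
  have h1 : c g ∈ V := by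
    refine ⟨⟨g, rfl⟩, ?_⟩
    have h2 := hM (F (g • y)) ⟨_, hg, rfl⟩
    have h3 : c g = F (g • y) - t := by rw [hc, hy]; abel
    rw [h3]
    exact (norm_sub_le _ _).trans (by linarith)
  have h2 : c ((gv (c g))⁻¹ * g) = 0 := by
    have h3 := hlat.add (gv (c g)) ((gv (c g))⁻¹ * g)
    rw [mul_inv_cancel_left, hgv _ h1] at h3
    simpa using h3
  obtain ⟨a, ha, hak⟩ := hAcov _ h2
  set κ : K := ⟨a⁻¹ * ((gv (c g))⁻¹ * g), hak⟩ with hκ
  set b : K ⧸ K'.subgroupOf K := QuotientGroup.mk κ with hb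
  have h3 : (b.out)⁻¹ * κ ∈ K'.subgroupOf K := by
    rw [← QuotientGroup.eq]
    exact b.out_eq'
  have h4 : ((b.out : K) : Γ)⁻¹ * (a⁻¹ * ((gv (c g))⁻¹ * g)) ∈ K' := h3
  refine ⟨_, h4, ?_⟩
  refine mem_iUnion₂.2 ⟨(gv (c g) * a * (b.out : Γ))⁻¹, ⟨((c g, a), b), ⟨⟨h1, ha⟩, mem_univ _⟩, rfl⟩,
    g • y, hg, ?_⟩
  show (gv (c g) * a * (b.out : Γ))⁻¹ • g • y = _
  rw [smul_smul]
  congr 1
  group

end

/-- **Module NUL with `FinRep`.** -/
theorem nul_of {n q : ℕ} {X : Type} [TopologicalSpace X] [T2Space X] [CompactSpace X]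
    [ChartedSpace (Cm n) X] [IsManifold 𝓘(ℂ, Cm n) ω X] {E Γ : Type} [TopologicalSpace E]
    [Group Γ] [MulAction Γ E] {p : E → X} (hG : IsGalois Γ p)
    {F : E → Cm q} {c : Γ → Cm q} {K : Subgroup Γ} (hF : HolE n p F)
    (hc : ∀ g y, F (g • y) = F y + c g) (hsub : ∀ k ∈ K, c k = 0) (hfr : FinRep K) {t : Cm q}
    (hcc : ∀ K' : Subgroup Γ, K' ≤ K → (K'.subgroupOf K).FiniteIndex →
      ∃ D : Set E, IsCompact D ∧ ∀ y : E, F y = t → ∃ k ∈ K', k • y ∈ D)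
    (hcon : IsConnected (F ⁻¹' {t})) (hreg : ∀ y, F y = t → Reg (n := n) p F y)
    {W : Type} [NormedAddCommGroup W] [InnerProductSpace ℂ W] [CompleteSpace W]
    {π : Γ →* (W ≃ₗᵢ[ℂ] W)} {Θ : E → Chart n X → (Cm n →L[ℂ] W)} {u : E → W}
    (hΘ : VPot p F t W Θ u) (hE : VEqui p F t K π Θ u) {y₀ : E} (hy₀ : F y₀ = t) {v : W}
    (hv : ∀ᶠ y in 𝓝 y₀, F y = t → ∃ e, At e (p y) ∧ ∃ ξ ∈ VS p F y e, Θ y e ξ = v) : v = 0 := by
  have hp := hG.cov
  have hF0 : ∀ k ∈ K, ∀ y, F (k • y) = F y := fun k hk y => by rw [hc, hsub k hk, add_zero]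
  obtain ⟨r, hr, y₁, e₁, hy₁, he₁, hrk₁⟩ := exists_max (p := p) (F := F) (Θ := Θ) hy₀
  have hvN : v ∈ NN p F Θ t r :=
    mem_NN_of hp hF hcon.isPreconnected hreg hΘ hr hy₀ hv
  have hNle : NN p F Θ t r ≤ imV p F Θ y₁ e₁ := fun w hw => mem_NN.1 hw y₁ e₁ hy₁ he₁ hrk₁
  have hfdC : FiniteDimensional ℂ (NN p F Θ t r) := Submodule.finiteDimensional_of_le hNle
  have hfd : FiniteDimensional ℝ ((NN p F Θ t r).restrictScalars ℝ) :=
    inferInstanceAs (FiniteDimensional ℝ (NN p F Θ t r))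
  obtain ⟨L, hL1, -, hL3⟩ := exists_trivial_onF hfr (fun (k : K) (w : W) => π k w)
    ((NN p F Θ t r).restrictScalars ℝ) hfd
    (fun k w hw => NN_smul hG hF0 hE k.2 hw)
    (fun k w _ w' _ => map_add _ _ _)
    (fun k a w _ => by
      have := (π k).map_smul (a : ℂ) w
      simpa using this)
    (fun w _ => by
      show π ((1 : K) : Γ) w = w
      rw [Subgroup.coe_one, map_one]; rfl)
    (fun k k' w _ => by
      show π ((k * k' : K) : Γ) w = π k (π k' w)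
      rw [Subgroup.coe_mul, map_mul]; rfl)
  set K' : Subgroup Γ := L.map K.subtype with hK'
  have hK'K : K' ≤ K := by
    rintro _ ⟨k, -, rfl⟩
    exact k.2
  have hKL : K'.subgroupOf K = L := by
    ext k
    rw [Subgroup.mem_subgroupOf, Subgroup.mem_map]
    constructor
    · rintro ⟨l, hl, hlk⟩
      have : l = k := Subtype.ext hlk
      rwa [← this]
    · intro hk
      exact ⟨k, hk, rfl⟩
  have hfi : (K'.subgroupOf K).FiniteIndex := by
    rw [hKL]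
    exact hL1
  have htriv : ∀ k ∈ K', ∀ w ∈ NN p F Θ t r, π k w = w := by
    rintro _ ⟨k, hk, rfl⟩ w hw
    exact hL3 k hk w hw
  obtain ⟨D, hD, hDcov⟩ := hcc K' hK'K hfi
  -- the periods vanish
  have hper : ∀ w ∈ NN p F Θ t r, ∀ k ∈ K', ∀ y, F y = t → ⟪w, u (k • y)⟫_ℂ = ⟪w, u y⟫_ℂ := by
    intro w hw
    have hb : ∀ k : Γ, ∃ b : W, k ∈ K → ∀ y, F y = t → u (k • y) = π k (u y) + b := by
      intro k
      by_cases hk : k ∈ K
      · obtain ⟨b, hb⟩ := hE.pot k hk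
        exact ⟨b, fun _ => hb⟩
      · exact ⟨0, fun h => absurd h hk⟩
    choose b hb using hb
    have h1 : ∀ k ∈ K', ∀ y, F y = t → ⟪w, u (k • y)⟫_ℂ = ⟪w, u y⟫_ℂ + ⟪w, b k⟫_ℂ := by
      intro k hk y hy
      rw [hb k (hK'K hk) y hy, inner_add_right]
      congr 1
      have h2 : π k w = w := htriv k hk w hw
      calc ⟪w, π k (u y)⟫_ℂ = ⟪π k w, π k (u y)⟫_ℂ := by rw [h2]
        _ = ⟪w, u y⟫_ℂ := (π k).inner_map_map _ _
    have h2 : ∀ k ∈ K', ∀ k' ∈ K', ⟪w, b (k * k')⟫_ℂ = ⟪w, b k⟫_ℂ + ⟪w, b k'⟫_ℂ := by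
      intro k hk k' hk'
      have e1 := h1 (k * k') (K'.mul_mem hk hk') y₀ hy₀
      have e2 := h1 k hk (k' • y₀) (by rw [hF0 k' (hK'K hk'), hy₀])
      have e3 := h1 k' hk' y₀ hy₀
      rw [mul_smul, e2, e3] at e1
      have e4 : ⟪w, b k'⟫_ℂ + ⟪w, b k⟫_ℂ = ⟪w, b (k * k')⟫_ℂ := by
        rw [add_assoc] at e1
        exact add_left_cancel e1
      rw [← e4, add_comm]
    have h3 : ∀ k ∈ K', ⟪w, b k⟫_ℂ = 0 := by
      intro k hk
      exact hom_zeroC (K := K) (K'.subgroupOf K) hfr hfi (fun x => ⟪w, b x⟫_ℂ)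
        (fun x hx y hy => h2 x hx y hy) (a := ⟨k, hK'K hk⟩) hk
    intro k hk y hy
    rw [h1 k hk y hy, h3 k hk, add_zero]
  -- `Re ⟪w, u⟫` is constant on the fibre
  have hre : ∀ w ∈ NN p F Θ t r, ∃ M : ℝ, ∀ y, F y = t → (⟪w, u y⟫_ℂ).re = M := by
    intro w hw
    refine re_const hp hF hcon hreg (fun y e hy he => ?_) hD (fun y hy => ?_)
    · obtain ⟨g, h, hg, hh, hev⟩ := hΘ.pot y e hy he w
      refine ⟨fun z => g z + h z, hg.add hh, ?_⟩
      filter_upwards [hev] with y' k1 k2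
      rw [(k1 k2).1, Complex.add_re, Complex.add_re, Complex.conj_re]
    · obtain ⟨k, hk, hkD⟩ := hDcov y hy
      exact ⟨k • y, hkD, by rw [hF0 k (hK'K hk), hy], by rw [hper w hw k hk y hy]⟩
  -- hence `⟪w, u⟫` is constant
  have hco : ∃ M : ℂ, ∀ y, F y = t → ⟪v, u y⟫_ℂ = M := by
    obtain ⟨M₁, h1⟩ := hre v hvN
    obtain ⟨M₂, h2⟩ := hre ((Complex.I : ℂ) • v) (Submodule.smul_mem _ _ hvN)
    refine ⟨⟨M₁, M₂⟩, fun y hy => Complex.ext (h1 y hy) ?_⟩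
    have h3 := h2 y hy
    rw [inner_smul_left, Complex.conj_I] at h3
    simpa using h3
  obtain ⟨M, hM⟩ := hco
  -- the derivative at `y₁`
  obtain ⟨ξ, hξ, hξv⟩ := hNle hvN
  obtain ⟨g, h, hg, hh, hev⟩ := hΘ.pot y₁ e₁ hy₁ he₁ v
  obtain ⟨f, ψ, φ, ε, hpar⟩ := exists_Par hp hF hy₁ he₁ (hreg y₁ hy₁)
  have h0 : AnalyticAt ℂ ψ 0 := hpar.an 0 (mem_ball_self hpar.pos)
  have h1 : ∀ᶠ z in 𝓝 (0 : Cm n), g (ψ z) + conj (h (ψ z)) = M := by
    refine hpar.germ0 hp hy₁ (Q := fun z => g z + conj (h z) = M) ?_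
    filter_upwards [hev] with y' k1 k2
    rw [← (k1 k2).1, hM y' k2]
  have hgψ : AnalyticAt ℂ (fun z => g (ψ z)) 0 :=
    AnalyticAt.fun_comp (by rw [hpar.ψ0]; exact hg) h0
  have hhψ : AnalyticAt ℂ (fun z => h (ψ z)) 0 :=
    AnalyticAt.fun_comp (by rw [hpar.ψ0]; exact hh) h0
  have h2 : ∀ η, fderiv ℂ (fun z => g (ψ z)) 0 η = 0 := by
    have d1 := hgψ.differentiableAt.hasFDerivAt.restrictScalars ℝ
    have d2 := hhψ.differentiableAt.hasFDerivAt.restrictScalars ℝ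
    have d3 : HasFDerivAt (fun z => g (ψ z) + conj (h (ψ z)))
        ((fderiv ℂ (fun z => g (ψ z)) 0).restrictScalars ℝ +
          (Complex.conjCLE : ℂ →L[ℝ] ℂ).comp ((fderiv ℂ (fun z => h (ψ z)) 0).restrictScalars ℝ))
        0 := d1.add ((Complex.conjCLE : ℂ →L[ℝ] ℂ).hasFDerivAt.comp (0 : Cm n) d2)
    have d4 : HasFDerivAt (fun z => g (ψ z) + conj (h (ψ z))) (0 : Cm n →L[ℝ] ℂ) 0 :=
      (hasFDerivAt_const M (0 : Cm n)).congr_of_eventuallyEq h1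
    have d5 := d3.unique d4
    intro η
    have e1 := DFunLike.congr_fun d5 η
    have e2 := DFunLike.congr_fun d5 (Complex.I • η)
    have e1' : fderiv ℂ (fun z => g (ψ z)) 0 η + conj (fderiv ℂ (fun z => h (ψ z)) 0 η) = 0 := e1
    have e2' : fderiv ℂ (fun z => g (ψ z)) 0 (Complex.I • η) +
        conj (fderiv ℂ (fun z => h (ψ z)) 0 (Complex.I • η)) = 0 := e2
    rw [map_smul, map_smul, smul_eq_mul, smul_eq_mul, map_mul, Complex.conj_I] at e2'
    have e3 : Complex.I * (fderiv ℂ (fun z => g (ψ z)) 0 η -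
        conj (fderiv ℂ (fun z => h (ψ z)) 0 η)) = 0 := by
      rw [mul_sub, ← e2']; ring
    have e4 := (mul_eq_zero.1 e3).resolve_left Complex.I_ne_zero
    have e5 : 2 * fderiv ℂ (fun z => g (ψ z)) 0 η = 0 := by
      linear_combination e1' + e4
    exact (mul_eq_zero.1 e5).resolve_left two_ne_zero
  -- conclusion
  obtain ⟨-, -, hv3⟩ := hpar.near.self_of_nhds hy₁
  rw [hpar.φ0] at hv3
  have h3 := (hev.self_of_nhds hy₁).2 ξ hξ
  have h4 : fderiv ℂ g (e₁ (p y₁)) ξ = 0 := by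
    have h5 : HasFDerivAt (fun z => g (ψ z)) ((fderiv ℂ g (e₁ (p y₁))).comp (fderiv ℂ ψ 0)) 0 := by
      refine HasFDerivAt.comp (0 : Cm n) (g := g) (f := ψ) ?_ h0.differentiableAt.hasFDerivAt
      rw [hpar.ψ0]
      exact hg.differentiableAt.hasFDerivAt
    have h6 := h2 (fderiv ℂ φ (e₁ (p y₁)) ξ)
    rw [h5.fderiv, ContinuousLinearMap.comp_apply, hv3 ξ hξ] at h6
    exact h6
  have h5 : Θ y₁ e₁ ξ = v := hξv
  rw [h4, h5] at h3
  exact inner_self_eq_zero.1 h3.symm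

end Vale.Agent.P284.H501.T
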