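import Vale.Agent.P284.H501.T.Core0
import Vale.Agent.P284.H661.T.Asm

/-!
# P284 (helper501), theorem T2: the core for the classes without natural forms
-/

open scoped Manifold ContDiff Topology
open Filter Set

noncomputable section

namespace Vale.Agent.P284.H501.T

open Vale.Agent.P272.K Vale.Agent.P284.H894 Vale.Agent.P284.H894.G Vale.Agent.P284.H894.V
  Vale.Agent.P284.H998 Vale.Agent.P284.H501.Core Vale.Agent.P284.H213.Q
  Vale.Agent.P284.H573.DK Vale.Agent.P284.H551 Vale.Agent.P284.H119.Kaz Vale.Agent.P284.H661.T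

/-- **Limit** for groups without property (T). -/
def LimKStmt : Prop :=
  ∀ (n : ℕ) (X : Type) [TopologicalSpace X] [T2Space X] [CompactSpace X] [ConnectedSpace X]
    [ChartedSpace (Cm n) X] [IsManifold 𝓘(ℂ, Cm n) ω X]
    (w : Chart n X → Cm n → Matrix (Fin n) (Fin n) ℂ), IsKahler w →
    ∀ (E Γ : Type) [TopologicalSpace E] [ConnectedSpace E] [Group Γ] [MulAction Γ E]
      (p : E → X), IsGalois Γ p → ¬ Kazhdan Γ → Lim0Concl (n := n) (Γ := Γ) p

/-- **CORE of T2** for a class `D` without natural forms -/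
theorem coreT2_noForm (hLT : LimKStmt) (hNS : NS2Stmt) {D : Cls} (hD : NoFormD D) : CoreT2 D := by
  intro n X _ _ _ _ _ _ ι _ J hDX w hw E Γ _ _ _ _ p hG hfr
  by_contra hK
  exact core0_noForm hNS hD J hDX hw hG hfr (hLT n X w hw E Γ p hG hK)

end Vale.Agent.P284.H501.T
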