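import Vale.Agent.P284.H378.T.LF0
import Vale.Agent.P284.H275.ResE
import Vale.Agent.P284.H174.EtSp
import Vale.Agent.P284.H501.T.CoreT2
import Vale.Agent.P284.H551.ECoc
import Vale.Agent.P284.H639.V15

/-!
# P284 (helper501), theorem T2: the core for special manifolds, `q = 0`
-/

open scoped Manifold ContDiff Topology InnerProductSpace ComplexConjugate
open Filter Set Metric

noncomputable section

set_option linter.unusedSectionVars false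

namespace Vale.Agent.P284.H501.T

open Vale.Agent.P272.K Vale.Agent.P284.H894 Vale.Agent.P284.H894.G Vale.Agent.P284.H894.V
  Vale.Agent.P284.H894.W Vale.Agent.P284.H573 Vale.Agent.P284.H213.Grp Vale.Agent.P284.H213.Q
  Vale.Agent.P284.H619 Vale.Agent.P284.H378 Vale.Agent.P284.H998 Vale.Agent.P284.H501.Core
  Vale.Agent.P284.H573.DK Vale.Agent.P284.H551 Vale.Agent.P284.H119.Kaz Vale.Agent.P284.H661.T
  Vale.Agent.P284.H275 Vale.Agent.P284.H837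

section
variable {n : ℕ} {X E Γ W W₀ : Type} [TopologicalSpace X] [ChartedSpace (Cm n) X]
  [TopologicalSpace E] [Group Γ] [MulAction Γ E] [NormedAddCommGroup W] [InnerProductSpace ℂ W]
  [NormedAddCommGroup W₀] [InnerProductSpace ℂ W₀]
  {p : E → X} {π : Γ →* (W ≃ₗᵢ[ℂ] W)} {Θ : E → Chart n X → (Cm n →L[ℂ] W)} {u : E → W}
  {A : Set W} {P : W →L[ℂ] W₀} {J : W₀ →ₗᵢ[ℂ] W} {π₀ : Γ →* (W₀ ≃ₗᵢ[ℂ] W₀)}

/-- the values of `Θ` -/
def valT (p : E → X) (Θ : E → Chart n X → (Cm n →L[ℂ] W)) : Set W :=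
  {x | ∃ y e ξ, At e (p y) ∧ Θ y e ξ = x}

theorem cform_map [CompleteSpace W] (hp : IsCoveringMap p) (P : W →L[ℂ] W₀) (hΘ : H619.CForm n p W Θ) :
    H619.CForm n p W₀ (mapT P Θ) := by
  refine ⟨fun y e he => ?_, fun y e e' he he' => ?_⟩
  · obtain ⟨f, hf, hev⟩ := hΘ.loc y e he
    refine ⟨fun z => P (f z), (P.analyticAt (f (e (p y)))).comp hf, ?_⟩
    have h1 : ∀ᶠ y' in 𝓝 y, AnalyticAt ℂ f (e (p y')) := by
      have h2 : ∀ᶠ z in 𝓝 (e (p y)), AnalyticAt ℂ f z := hf.eventually_analyticAt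
      exact (ep_ev hp.isLocalHomeomorph he).2 h2
    filter_upwards [hev, h1] with y' h2 h3
    rw [mapT, h2]
    exact (P.hasFDerivAt.comp (e (p y')) h3.differentiableAt.hasFDerivAt).fderiv.symm
  · rw [mapT, mapT, hΘ.change y e e' he he']
    rfl

theorem equi_map0 (h : Restr π A W₀ P J π₀) (hπ : Equi p π Θ) : Equi p π₀ (mapT P Θ) := by
  intro g y e he
  ext ξ
  rw [mapT_apply, hπ g y e he]
  exact h.Pπ g _

theorem pot_map0 (h : Restr π A W₀ P J π₀) (hpot : Pot0 p Θ u) :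
    Pot0 p (mapT P Θ) (fun y => P (u y)) := by
  intro y e he c
  obtain ⟨g, k, hg, hk, hgk⟩ := hpot y e he (J c)
  refine ⟨g, k, hg, hk, ?_⟩
  filter_upwards [hgk] with y' hy'
  obtain ⟨h1, h2⟩ := hy'
  refine ⟨by rw [h.inner, h1], fun ξ => ?_⟩
  rw [mapT_apply, h.inner, h2 ξ]

theorem J_mapT (h : Restr π (valT p Θ) W₀ P J π₀) {y : E} {e : Chart n X} (he : At e (p y))
    (ξ : Cm n) : J (mapT P Θ y e ξ) = Θ y e ξ := h.JP _ ⟨y, e, ξ, he, rfl⟩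

/-- the restriction of the limit data for `q = 0` to the closed span of the values of `Θ` -/
theorem exists_res0 [CompleteSpace W] (hp : IsCoveringMap p) (hpg : ∀ (g : Γ) y, p (g • y) = p y)
    (hΘ : H619.CForm n p W Θ) (hπ : Equi p π Θ) (hpot : Pot0 p Θ u)
    (hb : ∀ g : Γ, ∃ b : W, ∀ y, u (g • y) = π g (u y) + b)
    (hne : ∃ (y : E) (e : Chart n X), At e (p y) ∧ Θ y e ≠ 0) :
    ∃ (W₀ : Type) (_ : NormedAddCommGroup W₀) (_ : InnerProductSpace ℂ W₀) (_ : CompleteSpace W₀)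
      (π₀ : Γ →* (W₀ ≃ₗᵢ[ℂ] W₀)) (Θ₀ : E → Chart n X → (Cm n →L[ℂ] W₀)) (u₀ : E → W₀),
      H619.CForm n p W₀ Θ₀ ∧ Equi p π₀ Θ₀ ∧ Pot0 p Θ₀ u₀ ∧
      (∀ g : Γ, ∃ b : W₀, ∀ y, u₀ (g • y) = π₀ g (u₀ y) + b) ∧
      (∃ (y : E) (e : Chart n X), At e (p y) ∧ Θ₀ y e ≠ 0) ∧
      ∀ g, (∀ y e, At e (p y) → ∀ ξ, π₀ g (Θ₀ y e ξ) = Θ₀ y e ξ) → π₀ g = 1 := by
  have hA : ∀ g, ∀ a ∈ valT p Θ, π g a ∈ valT p Θ := by
    rintro g _ ⟨y, e, ξ, he, rfl⟩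
    refine ⟨g • y, e, ξ, ?_, ?_⟩
    · rw [hpg]
      exact he
    · rw [hπ g y e he]
      rfl
  obtain ⟨W₀, i1, i2, i3, P, J, π₀, h⟩ := exists_restr π (valT p Θ) hA
  refine ⟨W₀, i1, i2, i3, π₀, mapT P Θ, fun y => P (u y), cform_map hp P hΘ, equi_map0 h hπ,
    pot_map0 h hpot, fun g => ?_, ?_, fun g hg => ?_⟩
  · obtain ⟨b, hb⟩ := hb g
    refine ⟨P b, fun y => ?_⟩
    show P (u (g • y)) = _
    rw [hb y, map_add, h.Pπ]
  · obtain ⟨y, e, he, hne⟩ := hne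
    refine ⟨y, e, he, fun h0 => hne ?_⟩
    ext1 ξ
    rw [← J_mapT h he ξ, h0]
    simp
  · refine h.triv g ?_
    rintro _ ⟨y, e, ξ, he, rfl⟩
    rw [← J_mapT h he ξ, ← h.Jπ, hg y e he ξ]

end

/-- leaf data of full rank contain a normal form -/
theorem nff_of_leaf {n q r m : ℕ} {X E Γ W H : Type} [TopologicalSpace X] [ChartedSpace (Cm n) X]
    [TopologicalSpace E] [Group Γ] [MulAction Γ E] [NormedAddCommGroup W] [InnerProductSpace ℂ W]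
    [NormedAddCommGroup H] [InnerProductSpace ℂ H] {p : E → X} {F : E → Cm q}
    {v : E → Chart n X → (Fin (q + (r + 1)) → Cm n) → H} {U : Γ → (H →ₗᵢ[ℂ] H)}
    {π : Γ →* (W ≃ₗᵢ[ℂ] W)} {Θ : E → Chart n X → (Cm n →L[ℂ] W)}
    {N : Cm 0 →L[ℂ] Cm q} {𝒢 : Set E} (hL : LeafE (q + (r + 1)) p F m v U π Θ N 𝒢) {y : E}
    (hy : y ∈ 𝒢) : ∃ y₀ e b γ t, NFF m p v F y₀ e b γ t := by
  obtain ⟨e, b, F0, β, γ, τ, h⟩ := hL.chart y hy
  have hnf : IsNF m p v y e b (fun x => γ (β x)) := by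
    refine ⟨h.mem, h.ban, h.bsurj, AnalyticAt.comp (g := γ) (f := β) h.γan h.βan,
      ⟨h.imm.1, fun η a hη => ?_⟩, h.v_eq⟩
    have h1 : fderiv ℂ (fun x => γ (β x)) (b (e (p y))) =
        (fderiv ℂ γ (β (b (e (p y))))).comp (fderiv ℂ β (b (e (p y)))) :=
      fderiv_comp (𝕜 := ℂ) (b (e (p y))) (g := γ) (f := β) h.γan.differentiableAt
        h.βan.differentiableAt
    rw [h1] at hη
    have h2 := h.imm.2 (fderiv ℂ β (b (e (p y))) η) a hη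
    have h3 : Function.Injective (fderiv ℂ β (b (e (p y)))) :=
      (LinearMap.injective_iff_surjective_of_finrank_eq_finrank
        (f := (fderiv ℂ β (b (e (p y))) : Cm (q + (r + 1)) →ₗ[ℂ] Cm (q + (r + 1)))) rfl).2
        h.βsurj
    exact h3 (by rw [h2, map_zero])
  refine ⟨y, e, b, _, H625.tq, hnf, ?_, h.t_eq⟩
  exact (H625.tqL q (r + 1)).analyticAt _

/-- **the core for `q = 0`, special manifolds** -/
theorem core0_sp (hSp : SpStmt) (hNS : NS2Stmt) {n : ℕ} {X : Type}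
    [TopologicalSpace X] [T2Space X] [CompactSpace X] [ConnectedSpace X]
    [ChartedSpace (Cm n) X] [IsManifold 𝓘(ℂ, Cm n) ω X] {ι : Type} [Fintype ι] (J : PJ n X ι)
    (hDX : FSp n X) {w : Chart n X → Cm n → Matrix (Fin n) (Fin n) ℂ} (hw : IsKahler w)
    {E Γ : Type} [TopologicalSpace E] [ConnectedSpace E] [Group Γ] [MulAction Γ E]
    {p : E → X} (hG : IsGalois Γ p) (hfr : FinRep Γ) : ¬ Lim0Concl (n := n) (Γ := Γ) p := by
  rintro ⟨W', i1', i2', i3', π', Θ', u', hΘ', hπ', hpot', hb', hne'⟩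
  obtain ⟨W, i1, i2, i3, π, Θ, u, hΘ, hπ, hpot, hb, hne, hspan⟩ :=
    exists_res0 hG.cov (fun g y => ((hG.orb y (g • y)).2 ⟨g, rfl⟩).symm) hΘ' hπ' hpot' hb' hne'
  set F : E → Cm 0 := fun _ => 0 with hF
  obtain ⟨r, m, H, j1, j2, j3, v, U, N, 𝒢, ⟨y, hy⟩, hL⟩ :=
    leaf0_of hNS hw hG hfr hΘ hπ hpot hb hne F
  obtain ⟨C, -, -, -, -⟩ := exists_eCoc hw hG
  have hfg : Group.FG Γ := H639.V.fg_of_coc C
  refine hSp n X ι J (special_of hDX) E Γ p hG 0 F (fun _ => 0) (fun y e he => ?_)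
    (fun g y => by simp [hF]) H (0 + (r + 1)) m (by omega) hL.m_pos v hL.form
    (fun g => ⟨U g, fun y e he ξ => hL.equi g y e he ξ⟩) (nff_of_leaf hL hy) ?_
  · exact ⟨fun _ => 0, Eventually.of_forall fun _ => rfl, analyticAt_const⟩
  · exact H378.T.lfin0 hG hfg hfr (t := 0) (vpot0 hΘ hpot F 0) (vequi0 hπ hb F 0 ⊤) hspan hL

/-- **CORE of T2** for special manifolds -/
theorem coreT2_sp (hSp : SpStmt) (hLT : LimKStmt) (hNS : NS2Stmt) : CoreT2 H174.fspC := by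
  intro n X _ _ _ _ _ _ ι _ J hDX w hw E Γ _ _ _ _ p hG hfr
  by_contra hK
  exact core0_sp hSp hNS J hDX hw hG hfr (hLT n X w hw E Γ p hG hK)

end Vale.Agent.P284.H501.T
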