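import Vale.Agent.P284.H501.Core.Uni
import Vale.Agent.P284.H501.T.NulF
import Vale.Agent.P284.H501.T.Sp0
import Vale.Agent.P284.H378.F.Fin
import Vale.Agent.P284.H366.V.Spec
import Vale.Agent.P284.H275.Gen
import Vale.Agent.P284.H338.IndQ
import Vale.Agent.P284.H213.T3.S

/-!
# P284 (helper501), theorem T3: the core without amenability

`leafOutT`: the core up to the case of full rank, from the limit for groups `K` without property (T)
all of whose finite dimensional real representations have finite range.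
-/

open scoped Manifold ContDiff Topology
open Filter Set Metric

noncomputable section

set_option linter.unusedSectionVars false

namespace Vale.Agent.P284.H501.T

open Vale.Agent.P272.K Vale.Agent.P284.H894 Vale.Agent.P284.H894.G Vale.Agent.P284.H894.V
  Vale.Agent.P284.H894.W Vale.Agent.P284.H573 Vale.Agent.P284.H213.Grp Vale.Agent.P284.H213.Q
  Vale.Agent.P284.H619 Vale.Agent.P284.H378 Vale.Agent.P284.H998 Vale.Agent.P284.H501.Core
  Vale.Agent.P284.H573.DK Vale.Agent.P284.H119.Kaz Vale.Agent.P284.H837 Vale.Agent.P284.H213.T3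

/-- the limit for normalised data, `K` without property (T) -/
def LimNT (q : ℕ) : Prop :=
  ∀ (n : ℕ) (X : Type) [TopologicalSpace X] [T2Space X] [CompactSpace X] [ConnectedSpace X]
    [ChartedSpace (Cm n) X] [IsManifold 𝓘(ℂ, Cm n) ω X]
    (w : Chart n X → Cm n → Matrix (Fin n) (Fin n) ℂ), IsKahler w →
    ∀ (E Γ : Type) [TopologicalSpace E] [ConnectedSpace E] [Group Γ] [MulAction Γ E]
      (p : E → X), IsGalois Γ p →
    ∀ (F : E → Cm q) (c : Γ → Cm q) (K : Subgroup Γ), (∃ B, HolB p w F B) →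
      (∀ g y, F (g • y) = F y + c g) → (∃ y, Reg (n := n) p F y) → GenConn (n := n) p F →
      NPkg Γ q c K → ¬ Kazhdan K →
    ∃ (W : Type) (_ : NormedAddCommGroup W) (_ : InnerProductSpace ℂ W) (_ : CompleteSpace W)
      (π : Γ →* (W ≃ₗᵢ[ℂ] W)) (S : E → Chart n X → Cm n [⋀^Fin (q + 1)]→L[ℂ] W)
      (Θ : E → Chart n X → (Cm n →L[ℂ] W)) (M₀ : Set (Cm q)),
      SRel p F π S Θ ∧ (∀ g, (∀ k ∈ K, g * k = k * g) → π g = 1) ∧ IsMeagre M₀ ∧
      ∀ t ∉ M₀, ∃ u : E → W, VPot p F t W Θ u ∧ VEqui p F t K π Θ u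

theorem limNT_of {q : ℕ} (hLim : H366.LimAtT q) : LimNT q := by
  intro n X _ _ _ _ _ _ w hw E Γ _ _ _ _ p hG F c K hF hc hR hGC hN hKz
  obtain ⟨m₀, z, hz1, hz2⟩ := H275.exists_gens hN
  obtain ⟨W, iW1, iW2, iW3, π, S, Θ, M₀, hS, hπz, -, hM₀, hpot'⟩ :=
    hLim n X w hw E Γ p hG F c K hF hc hR hGC hN.lat hN.normal hN.sub hN.fi hKz (Fin m₀) z hz1
  refine ⟨W, iW1, iW2, iW3, π, S, Θ, M₀, hS, fun g hg => ?_, hM₀, fun t ht => ?_⟩
  · have h1 : Subgroup.closure (Set.range z) ≤ π.ker := by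
      rw [Subgroup.closure_le]
      rintro _ ⟨i, rfl⟩
      exact hπz i
    exact h1 (hz2 g hg)
  · obtain ⟨u, h1, h2⟩ := hpot' t ht
    exact ⟨u, h1, h2 K hN.sub⟩

/-- if `K` does not have property (T), neither does `Γ` (normalised data) -/
theorem not_kazhdan_npkg {Γ : Type} [Group Γ] {q : ℕ} {c : Γ → Cm q} {K : Subgroup Γ}
    (hN : NPkg Γ q c K) (hKz : ¬ Kazhdan K) : ¬ Kazhdan Γ := by
  rintro ⟨S, ε, hε, h⟩
  obtain ⟨H, i1, i2, i3, π, ξ, h1, h2, h3⟩ := H338.Ind.exists_rep_lat hN.lat K hN.normal hN.sub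
    hN.fi hKz (S : Set Γ) S.finite_toSet hε
  obtain ⟨η, hη, hη'⟩ := h H π ξ h1 fun s hs => h2 s hs
  exact hη (h3 η fun k _ => hη' k)

/-- the limit for normalised data, `q = 0` -/
theorem limNT_zero (hL : LimKStmt) : LimNT 0 := by
  intro n X _ _ _ _ _ _ w hw E Γ _ _ _ _ p hG F c K hF hc hR hGC hN hKz
  obtain ⟨W, iW1, iW2, iW3, π, Θ, u, hΘ, hπ, hpot, hb, hne⟩ :=
    hL n X w hw E Γ p hG (not_kazhdan_npkg hN hKz)
  refine ⟨W, iW1, iW2, iW3, π, _, Θ, ∅, sRel0 hG hΘ hπ hne F, fun g hg => ?_,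
    IsMeagre.empty, fun t _ => ⟨u, vpot0 hΘ hpot F t, vequi0 hπ hb F t K⟩⟩
  have : (K.subgroupOf K).FiniteIndex := by
    rw [Subgroup.subgroupOf_self]
    infer_instance
  rw [hN.cent K le_rfl inferInstance g (Subsingleton.elim _ _) hg, map_one]

/-- **CORE**, uniform in `q`, `K` without property (T) and with finite linear images: only the case of
full rank remains -/
theorem leafOutNT {q : ℕ} (hLim : LimNT q) (hNS : NS2Stmt)
    (n : ℕ) (X : Type) [TopologicalSpace X] [T2Space X] [CompactSpace X] [ConnectedSpace X]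
    [ChartedSpace (Cm n) X] [IsManifold 𝓘(ℂ, Cm n) ω X]
    (w : Chart n X → Cm n → Matrix (Fin n) (Fin n) ℂ) (hw : IsKahler w)
    (E Γ : Type) [TopologicalSpace E] [ConnectedSpace E] [Group Γ] [MulAction Γ E]
    (p : E → X) (hG : IsGalois Γ p) (F : E → Cm q)
    (c : Γ → Cm q) (K : Subgroup Γ) (hF : ∃ B, HolB p w F B)
    (hc : ∀ g y, F (g • y) = F y + c g) (hR : ∃ y, Reg (n := n) p F y)
    (hGC : GenConn (n := n) p F) (hN : NPkg Γ q c K) (hfr : FinRep K) (hKz : ¬ Kazhdan K) :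
    LeafOut n q X E Γ p F K := by
  obtain ⟨B, hFB⟩ := hF
  obtain ⟨W, iW1, iW2, iW3, π, S, Θ, M₀, hS, hπ, hM₀, hpot⟩ :=
    hLim n X w hw E Γ p hG F c K ⟨B, hFB⟩ hc hR hGC hN hKz
  have hThE := thE_of hG hFB hc hS hpot
  have hThn := th_ne hG.cov hFB hR hS
  rcases hNS n X w hw E Γ p hG q F c ⟨B, hFB⟩ hc hR W π S Θ hS with hB | hL
  · exfalso
    obtain ⟨O, hO, hOne, hOa⟩ := hB
    obtain ⟨T, hTc, hTi, hT⟩ := hGC
    obtain ⟨y₁, hy₁O, hy₁⟩ := (reg_dense' hG.cov hFB hR).inter_open_nonempty O hO hOne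
    have h1 : F '' O ∈ 𝓝 (F y₁) := by
      rw [← H885.Ker.reg_map hG.cov hFB hy₁]
      exact Filter.image_mem_map (hO.mem_nhds hy₁O)
    have hTm : IsMeagre T := by
      have : IsNowhereDense T := by
        rw [IsNowhereDense, hTc.closure_eq, hTi]
      exact this.isMeagre
    have h2 : Dense (T ∪ M₀)ᶜ := dense_of_mem_residual (hTm.union hM₀)
    obtain ⟨t, ht1, ht2⟩ := h2.inter_nhds_nonempty h1
    obtain ⟨y₀, hy₀, rfl⟩ := ht2
    have ht : F y₀ ∉ T ∧ F y₀ ∉ M₀ :=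
      ⟨fun h => ht1 (Or.inl h), fun h => ht1 (Or.inr h)⟩
    obtain ⟨a, ha, hev⟩ := hOa y₀ hy₀
    obtain ⟨u, hu1, hu2⟩ := hpot _ ht.2
    have hHE : HolE n p F := fun y e he => by
      obtain ⟨f, h1, h2⟩ := H221.holB_an hFB y he
      exact ⟨f, h2, h1⟩
    exact ha (nul_of hG hHE hc hN.sub hfr
      (fun K' _ hfi => exists_compact_fib' hG hHE hc hN.lat hN.fi hfi (F y₀))
      (hT _ ht.1).1 (hT _ ht.1).2 hu1 hu2 rfl hev)
  · obtain ⟨r, s, k, m, H, i1, i2, i3, v, U, N, 𝒢, hne, hL⟩ := hL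
    rcases Nat.eq_zero_or_pos k with hk | hk
    · subst hk
      have hs : q + (r + 1) = s := by simpa using hL.dim
      subst hs
      exact ⟨W, iW1, iW2, iW3, π, Θ, M₀, r, m, H, i1, i2, i3, v, U, N, 𝒢, hM₀, hThE, hThn, hπ,
        hne, hL⟩
    · exfalso
      exact H378.F.cStmtF n q (r + 1) k s m X w hw E Γ p hG F c K ⟨B, hFB⟩ hc hN hfr hGC hR W H π Θ
        M₀ hM₀ hThE hThn hπ v U N 𝒢 { toLeafE := hL, k_pos := hk }

/-- `leafOutNT` with helper366's statement of the limit -/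
theorem leafOutT {q : ℕ} (hLim : H366.LimAtT q) (hNS : NS2Stmt)
    (n : ℕ) (X : Type) [TopologicalSpace X] [T2Space X] [CompactSpace X] [ConnectedSpace X]
    [ChartedSpace (Cm n) X] [IsManifold 𝓘(ℂ, Cm n) ω X]
    (w : Chart n X → Cm n → Matrix (Fin n) (Fin n) ℂ) (hw : IsKahler w)
    (E Γ : Type) [TopologicalSpace E] [ConnectedSpace E] [Group Γ] [MulAction Γ E]
    (p : E → X) (hG : IsGalois Γ p) (F : E → Cm q)
    (c : Γ → Cm q) (K : Subgroup Γ) (hF : ∃ B, HolB p w F B)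
    (hc : ∀ g y, F (g • y) = F y + c g) (hR : ∃ y, Reg (n := n) p F y)
    (hGC : GenConn (n := n) p F) (hN : NPkg Γ q c K) (hfr : FinRep K) (hKz : ¬ Kazhdan K) :
    LeafOut n q X E Γ p F K :=
  leafOutNT (limNT_of hLim) hNS n X w hw E Γ p hG F c K hF hc hR hGC hN hfr hKz

/-- **CORE**, special manifolds without natural forms `SpStmt`: contradiction -/
theorem leafOut_sp (hSp : SpStmt) {q : ℕ}
    (n : ℕ) (X : Type) [TopologicalSpace X] [T2Space X] [CompactSpace X] [ConnectedSpace X]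
    [ChartedSpace (Cm n) X] [IsManifold 𝓘(ℂ, Cm n) ω X] {ι : Type} [Fintype ι] (J : PJ n X ι)
    (hX : H248.Special n X)
    (w : Chart n X → Cm n → Matrix (Fin n) (Fin n) ℂ) (hw : IsKahler w)
    (E Γ : Type) [TopologicalSpace E] [ConnectedSpace E] [Group Γ] [MulAction Γ E]
    (p : E → X) (hG : IsGalois Γ p) (F : E → Cm q)
    (c : Γ → Cm q) (K : Subgroup Γ) (hF : ∃ B, HolB p w F B)
    (hc : ∀ g y, F (g • y) = F y + c g) (hR : ∃ y, Reg (n := n) p F y)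
    (hGC : GenConn (n := n) p F) (hN : NPkg Γ q c K) (hfr : FinRep K)
    (hO : LeafOut n q X E Γ p F K) : False := by
  obtain ⟨W, _, _, _, π, Θ, M₀, r, m, H, _, _, _, v, U, N, 𝒢, hM₀, hThE, hThn, hπ, ⟨y, hy⟩, hL⟩ :=
    hO
  obtain ⟨B, hFB⟩ := hF
  refine hSp n X ι J hX E Γ p hG q F c (fun y e he => ?_) hc H (q + (r + 1)) m
    (by omega) hL.m_pos v hL.form (fun g => ⟨U g, fun y e he ξ => hL.equi g y e he ξ⟩)
    (nff_of_leaf hL hy) ?_
  · obtain ⟨f, h1, h2⟩ := H221.holB_an hFB y he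
    exact ⟨f, h2, h1⟩
  · refine lfin_of hG.cov hL.form hc hN N fun D hD S hS => ?_
    exact H378.F.lfStmtF n q (r + 1) 0 (q + (r + 1)) m X w hw E Γ p hG F c K ⟨B, hFB⟩ hc hN hfr hGC
      hR W H π Θ M₀ hM₀ hThE hThn hπ v U N 𝒢 hL D hD S hS

/-- **CORE of T3** for a class `D` without natural forms -/
theorem coreT_noForm_NT (hLim : ∀ q, LimNT q) (hNS : NS2Stmt) {D : Cls} (hD : NoFormD D) :
    CoreT D := by
  intro n X _ _ _ _ _ _ ι _ J hDX w hw E Γ _ _ _ _ p hG q F c K hF hc hR hGC hN hfr hKz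
  obtain ⟨W, _, _, _, π, Θ, M₀, r, m, H, _, _, _, v, U, N, 𝒢, -, -, -, -, ⟨y, hy⟩, hL⟩ :=
    leafOutNT (hLim q) hNS n X w hw E Γ p hG F c K hF hc hR hGC hN hfr hKz
  exact hD n X ι J hDX E Γ p hG (q + (r + 1)) m (by omega) hL.m_pos H v hL.form y
    (good_of_leaf hL rfl hy)

/-- **CORE of T3** for special manifolds -/
theorem coreT_sp_NT (hLim : ∀ q, LimNT q) (hNS : NS2Stmt) (hSp : SpStmt) :
    CoreT H174.fspC := by
  intro n X _ _ _ _ _ _ ι _ J hDX w hw E Γ _ _ _ _ p hG q F c K hF hc hR hGC hN hfr hKz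
  exact leafOut_sp hSp n X J (special_of hDX) w hw E Γ p hG F c K hF hc hR hGC hN hfr
    (leafOutNT (hLim q) hNS n X w hw E Γ p hG F c K hF hc hR hGC hN hfr hKz)

theorem coreT_noForm_of (hLim : ∀ q, H366.LimAtT q) (hNS : NS2Stmt) {D : Cls} (hD : NoFormD D) :
    CoreT D := coreT_noForm_NT (fun q => limNT_of (hLim q)) hNS hD

theorem coreT_sp_of (hLim : ∀ q, H366.LimAtT q) (hNS : NS2Stmt) (hSp : SpStmt) :
    CoreT H174.fspC := coreT_sp_NT (fun q => limNT_of (hLim q)) hNS hSp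

/-- the limit for all `q` from `LimKStmt` (`q = 0`) and `LimAtT q`, `q ≥ 1` -/
theorem limNT_all (hL : LimKStmt) (hLim : ∀ q, 1 ≤ q → H366.LimAtT q) (q : ℕ) : LimNT q := by
  rcases Nat.eq_zero_or_pos q with rfl | hq
  · exact limNT_zero hL
  · exact limNT_of (hLim q hq)

end Vale.Agent.P284.H501.T
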