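import Vale.Agent.P284.H501.T.LcnX
import Vale.Agent.P284.H366.J.Disp

/-!
# P284 (helper501), T3⁺, module T4a: `LeafConstStmt`
-/

open scoped Manifold ContDiff Topology InnerProductSpace ComplexConjugate
open Filter Set Metric

noncomputable section

set_option linter.unusedSectionVars false

namespace Vale.Agent.P284.H501.Lcn

open Vale.Agent.P272.K Vale.Agent.P284.H894.G Vale.Agent.P284.H894.V Vale.Agent.P284.H894.W
  Vale.Agent.P284.H213.Grp Vale.Agent.P284.H619 Vale.Agent.P284.H573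
  Vale.Agent.P284.H625 Vale.Agent.P284.H378 Vale.Agent.P284.H212 Vale.Agent.P284.H395
  Vale.Agent.P284.H494 Vale.Agent.P284.H650.T Vale.Agent.P284.H573.GG

/-- **(T4a)**: the displacements are constant along the leaves -/
theorem leafConst (hTh : ThStmt) (hSep : SepStmt) : LeafConstStmt := by
  intro n q r k s m X _ _ _ _ _ _ w E Γ _ _ _ _ p F c K hStd W H _ _ _ _ _ _ π S Θ J T hJ hT _
    v U N 𝒢 hE z hz hzR e b F0 β γ τ hL
  have hG := hStd.gal
  have hp := hG.cov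
  obtain ⟨-, hThE, -⟩ := hTh n q X w E Γ p F c K hStd W π S Θ J hJ
  obtain ⟨hRVo, -, -, hconn, -⟩ := hSep n q X w E Γ p F c K hStd
  obtain ⟨B, hB⟩ := hStd.hol
  have hFc : Continuous F := (H885.Ker.holE_of hB).continuous hp
  have hK : ∀ κ ∈ K, ∀ y, F (κ • y) = F y := fun κ hκ y => by
    rw [hStd.eqv, (hStd.ker κ).1 hκ, add_zero]
  obtain ⟨M, hM, hgf⟩ := H221.gfStmt n q X E Γ p hG w F c ⟨B, hB⟩ hStd.eqv hStd.lat.disc 𝒢
    hE.good hE.inv
  -- the generic fibres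
  have hgen : ∀ κ ∈ K, ∀ y ∈ 𝒢, F y ∈ RV n p F → F y ∉ M → ∀ᶠ y₂ in 𝓝 y, SL p v y y₂ →
      T y₂ (κ • y₂) = T y (κ • y) := by
    intro κ hκ y hy hyR hyM
    have hreg : ∀ y', F y' = F y → Reg (n := n) p F y' := fun y' h => hyR y' h
    exact gen_fix hG hE hT hThE.equi hRVo hFc hK hStd.fg hStd.nvi hyR
      (fib_good hp hB (hconn _ hyR) hreg hE.good.isOpen (hgf _ hyM hreg)) hy rfl hκ
  -- the box
  set x₀ := b (e (p z)) with hx₀
  have hβb : AnalyticAt ℂ (fun x => β (b x)) (e (p z)) := hL.βan.comp hL.ban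
  have hsur : Function.Surjective (fderiv ℂ (fun x => β (b x)) (e (p z))) := by
    have h1 : HasFDerivAt (fun x => β (b x)) (fderiv ℂ β x₀ ∘L fderiv ℂ b (e (p z))) (e (p z)) :=
      hL.βan.differentiableAt.hasFDerivAt.comp _ hL.ban.differentiableAt.hasFDerivAt
    rw [h1.fderiv]
    exact hL.βsurj.comp hL.bsurj
  have hO : {y | y ∈ 𝒢 ∧ F y ∈ RV n p F ∧ LC p F m v U π Θ N y e b F0 β γ τ} ∈ 𝓝 z := by
    filter_upwards [hE.good.isOpen.mem_nhds hz, hFc.continuousAt.eventually (hRVo.mem_nhds hzR),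
      lc_near hp hL] with y g1 g2 g3 using ⟨g1, g2, g3⟩
  obtain ⟨σ, φ, L, ρ, hρ, hσc, -, hσO, hFσ, hφ, -⟩ := H366.J.exists_boxE
    (F := fun y => β (b (e (p y)))) hp hL.mem hβb (Eventually.of_forall fun _ => rfl) hsur hO
  refine ⟨_, hφ, fun y hy y' hy' hyy κ hcκ => ?_⟩
  have hκ : κ ∈ K := (hStd.ker κ).2 hcκ
  obtain ⟨h1, h2⟩ := hy
  obtain ⟨h3, h4⟩ := hy'
  set b' := β (b (e (p y))) with hb'
  have hconv : Convex ℝ (ball (0 : Cm n) ρ ∩ {x | β (b (e (p z))) + L x = b'}) := by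
    refine (convex_ball _ _).inter ?_
    have h1 : {x : Cm n | β (b (e (p z))) + L x = b'} =
        ((L : Cm n →ₗ[ℂ] Cm s).restrictScalars ℝ) ⁻¹' {b' - β (b (e (p z)))} := by
      ext x
      show β (b (e (p z))) + L x = b' ↔ L x = b' - β (b (e (p z)))
      rw [eq_sub_iff_add_eq']
    rw [h1]
    exact (convex_singleton _).linear_preimage _
  have e1 : φ y ∈ ball (0 : Cm n) ρ ∩ {x | β (b (e (p z))) + L x = b'} :=
    ⟨h1, by rw [mem_setOf_eq, ← hFσ _ h1, h2]⟩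
  have e2 : φ y' ∈ ball (0 : Cm n) ρ ∩ {x | β (b (e (p z))) + L x = b'} :=
    ⟨h3, by rw [mem_setOf_eq, ← hFσ _ h3, h4, hyy]⟩
  have key := hconv.isPreconnected.induction₂ (fun a b => T (σ a) (κ • σ a) = T (σ b) (κ • σ b))
    (fun a ha => by
      obtain ⟨g1, g2, g3⟩ := hσO a ha.1
      obtain ⟨V, hV, h5⟩ := ext_loc hG hE hT hThE.equi hRVo hFc (hK κ hκ) hM (hgen κ hκ) g1 g2 g3
      obtain ⟨V', hV', h6⟩ := sl_iff hp hE.form g3
      have hσa : Tendsto σ (𝓝[ball 0 ρ] a) (𝓝 (σ a)) := hσc a ha.1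
      have hσa' : Tendsto σ (𝓝[ball (0 : Cm n) ρ ∩ {x | β (b (e (p z))) + L x = b'}] a)
        (𝓝 (σ a)) := hσa.mono_left (nhdsWithin_mono _ inter_subset_left)
      filter_upwards [hσa'.eventually hV, hσa'.eventually hV', self_mem_nhdsWithin]
        with a' k1 k2 k3
      have k4 : β (b (e (p (σ a)))) = β (b (e (p (σ a')))) := by
        rw [hFσ a ha.1, hFσ a' k3.1, ha.2, k3.2]
      exact h5 _ (mem_of_mem_nhds hV) _ k1 (((h6 _ (mem_of_mem_nhds hV')).2 _ k2).2 k4))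
    (fun a b c _ _ _ h1 h2 => h1.trans h2) (fun a b _ _ h => h.symm) e1 e2
  rwa [h2, h4] at key

end Vale.Agent.P284.H501.Lcn
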