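import Vale.Agent.P284.H501.Core.Uni
import Vale.Agent.P284.H501.T.NulF
import Vale.Agent.P284.H551.L4S

/-!
# P284 (helper501), the core for `q = 0` with `FinRep` in place of amenability

`leaf0_of`: a Galois covering of a compact Kähler manifold whose group has only finite dimensional real
representations with finite range, and which carries an equivariant closed form with a potential
(`H551.Lim0Concl`), carries a natural form with leaf data of full rank.
-/

open scoped Manifold ContDiff Topology ENNReal InnerProductSpace ComplexConjugate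
open Filter Set MeasureTheory

noncomputable section

set_option linter.unusedSectionVars false

namespace Vale.Agent.P284.H501.T

open Vale.Agent.P272.K Vale.Agent.P284.H894 Vale.Agent.P284.H894.G Vale.Agent.P284.H894.V
  Vale.Agent.P284.H894.W Vale.Agent.P284.H573 Vale.Agent.P284.H213.Grp Vale.Agent.P284.H213.Q
  Vale.Agent.P284.H619 Vale.Agent.P284.H378 Vale.Agent.P284.H998 Vale.Agent.P284.H501.Core
  Vale.Agent.P284.H573.DK Vale.Agent.P284.H551

/-- `FinRep` passes to quotients -/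
theorem finRep_surj {G K : Type} [Group G] [Group K] (hfr : FinRep G) (f : G →* K)
    (hf : Function.Surjective f) : FinRep K := by
  intro V _ _ _ ρ
  have h := hfr V (ρ.comp f)
  refine h.subset ?_
  rintro _ ⟨k, rfl⟩
  obtain ⟨g, rfl⟩ := hf k
  exact ⟨g, rfl⟩

theorem finRep_top {G : Type} [Group G] (hfr : FinRep G) : FinRep (⊤ : Subgroup G) :=
  finRep_surj hfr (Subgroup.topEquiv (G := G)).symm.toMonoidHom
    (Subgroup.topEquiv (G := G)).symm.surjective

section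
variable {n : ℕ} {X E Γ W : Type} [TopologicalSpace X] [ChartedSpace (Cm n) X]
  [TopologicalSpace E] [Group Γ] [MulAction Γ E] [NormedAddCommGroup W] [InnerProductSpace ℂ W]
  [CompleteSpace W] {p : E → X} {π : Γ →* (W ≃ₗᵢ[ℂ] W)} {Θ : E → Chart n X → (Cm n →L[ℂ] W)} {u : E → W}

/-- the data for `q = 0` -/
theorem sRel0 (hG : IsGalois Γ p) (hΘ : H619.CForm n p W Θ) (hπ : Equi p π Θ)
    (hne : ∃ (y : E) (e : Chart n X), At e (p y) ∧ Θ y e ≠ 0) (F : E → Cm 0) :
    SRel p F π (fun y e => alt1 (Θ y e)) Θ := by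
  obtain ⟨y₀, e₀, he₀, hne⟩ := hne
  have hp := hG.cov
  have hp' := hp.isLocalHomeomorph
  refine ⟨⟨⟨fun y e he => ?_, fun y e e' he he' ξ => ?_⟩, fun y e f _ _ _ ξ i j hij => ?_,
      fun y e f s he hf hs hsS => ?_⟩, fun y e s he hs hsS => ?_, fun g y e he ξ => ?_, ?_, ?_⟩
  · obtain ⟨f, hf, hev⟩ := hΘ.loc y e he
    refine ⟨fun z => alt1 (fderiv ℂ f z), an_alt1 hf.fderiv, ?_⟩
    filter_upwards [hev] with y' h1
    rw [h1]
  · rw [alt1_apply, alt1_apply, hΘ.change y e e' he he']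
    rfl
  · exact absurd (Subsingleton.elim (α := Fin 1) i j) hij
  · have h1 : ∀ᶠ z in 𝓝 (e (p y)), ‖s z‖ₑ < ‖s (e (p y))‖ₑ + 1 := by
      have h2 : ContinuousAt (fun z => ‖s z‖ₑ) (e (p y)) := hs.continuousAt.enorm
      refine h2.eventually_lt continuousAt_const ?_
      exact ENNReal.lt_add_right (by simp) one_ne_zero
    obtain ⟨ρ, hρ, hB⟩ := Metric.mem_nhds_iff.1 h1
    set A : ℝ≥0∞ := (‖s (e (p y))‖ₑ + 1) ^ 2 * volume (Metric.ball (e (p y)) ρ) with hA
    refine ⟨Metric.ball (e (p y)) ρ, Metric.ball_mem_nhds _ hρ, A, ?_, fun g hg => ?_⟩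
    · refine ENNReal.mul_ne_top ?_ (measure_ball_lt_top).ne
      exact ENNReal.pow_ne_top (by simp)
    · have h3 : ∀ x : Cm 0, g x = g 0 := fun x => by rw [Subsingleton.elim x 0]
      have h4 : ∫⁻ x : Cm 0, g x = g 0 := by
        simp only [h3]
        rw [lintegral_const]
        have : (volume : Measure (Cm 0)) univ = 1 := by
          rw [volume_pi, Measure.pi_of_empty]
          simp
        rw [this, mul_one]
      rw [h4]
      calc ∫⁻ z in Metric.ball (e (p y)) ρ, g (f z) * ‖s z‖ₑ ^ 2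
          ≤ ∫⁻ _ in Metric.ball (e (p y)) ρ, g 0 * (‖s (e (p y))‖ₑ + 1) ^ 2 := by
            refine setLIntegral_mono' Metric.isOpen_ball.measurableSet fun z hz => ?_
            rw [h3 (f z)]
            gcongr
            exact (hB hz).le
        _ = A * g 0 := by
            rw [setLIntegral_const, hA]
            ring
  · obtain ⟨f, hf, hev⟩ := hΘ.loc y e he
    have h1 : ∀ᶠ z in 𝓝 (e (p y)), s z = alt1 (fderiv ℂ f z) := by
      refine (ep_ev hp' he).1 ?_
      filter_upwards [hsS, hev] with y' h2 h3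
      rw [← h2, h3]
    have h2 : ∀ᶠ z in 𝓝 (e (p y)), AnalyticAt ℂ f z := hf.eventually_analyticAt
    filter_upwards [h1.eventually_nhds, h2] with z h3 h4
    have h5 : s =ᶠ[𝓝 z] extDeriv (fun x =>
        ContinuousAlternatingMap.constOfIsEmpty ℂ (Cm n) (Fin 0) (f x)) := by
      filter_upwards [h3] with z' h6
      rw [h6, extDeriv_constOfIsEmpty]
      rfl
    rw [h5.extDeriv.self_of_nhds]
    refine extDeriv_extDeriv_apply (r := ω) ?_ (by simp)
    have h6 : AnalyticAt ℂ (fun x =>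
        ContinuousAlternatingMap.constOfIsEmpty ℂ (Cm n) (Fin 0) (f x)) z := by
      have h7 := ((ContinuousAlternatingMap.constOfIsEmptyLIE ℂ (Cm n) W
        (Fin 0)).toContinuousLinearEquiv.toContinuousLinearMap.analyticAt (f z)).comp h4
      exact h7
    exact h6.contDiffAt
  · rw [alt1_apply, alt1_apply, hπ g y e he]
    rfl
  · refine ⟨y₀, e₀, he₀, ?_⟩
    by_contra hcon
    push Not at hcon
    apply hne
    ext1 ξ
    exact hcon fun _ => ξ
  · intro y e f he hf hs Θ' hΘ' ξ hξ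
    have h1 := hΘ'.snoc (fun i => i.elim0) hξ
    have h2 : dL (fderiv ℂ f (e (p y))) (fun i : Fin 0 => i.elim0) = 1 := by
      rw [dL]
      exact Matrix.det_isEmpty
    rw [h2, one_smul] at h1
    rw [← h1, alt1_apply]
    rfl

theorem vpot0 (hΘ : H619.CForm n p W Θ) (hpot : Pot0 p Θ u) (F : E → Cm 0) (t : Cm 0) :
    VPot p F t W Θ u := by
  refine ⟨fun y e _ he => ?_, fun y e e' _ he he' ξ _ => ?_, fun y e _ he d => ?_⟩
  · obtain ⟨f, hf, hev⟩ := hΘ.loc y e he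
    refine ⟨fun z => fderiv ℂ f z, hf.fderiv, ?_⟩
    filter_upwards [hev] with y' h1 _ ξ _
    rw [h1]
  · rw [hΘ.change y e e' he he']
    rfl
  · obtain ⟨g, h, hg, hh, hev⟩ := hpot y e he d
    refine ⟨g, h, hg, hh, ?_⟩
    filter_upwards [hev] with y' h1 _
    exact ⟨h1.1, fun ξ _ => h1.2 ξ⟩

theorem vequi0 (hπ : Equi p π Θ) (hb : ∀ g : Γ, ∃ b : W, ∀ y, u (g • y) = π g (u y) + b)
    (F : E → Cm 0) (t : Cm 0) (K : Subgroup Γ) : VEqui p F t K π Θ u := by
  refine ⟨fun k _ y e _ he ξ _ => ?_, fun k _ => ?_⟩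
  · rw [hπ k y e he]
    rfl
  · obtain ⟨b, hb⟩ := hb k
    exact ⟨b, fun y _ => hb y⟩

/-- **NUL** for `q = 0` -/
theorem nul0 [T2Space X] [CompactSpace X] [ConnectedSpace E] [IsManifold 𝓘(ℂ, Cm n) ω X]
    (hG : IsGalois Γ p) (hfr : FinRep Γ) (hΘ : H619.CForm n p W Θ)
    (hπ : Equi p π Θ) (hpot : Pot0 p Θ u)
    (hb : ∀ g : Γ, ∃ b : W, ∀ y, u (g • y) = π g (u y) + b) {y₀ : E} {v : W}
    (hv : ∀ᶠ y in 𝓝 y₀, ∃ e, At e (p y) ∧ ∃ ξ : Cm n, Θ y e ξ = v) : v = 0 := by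
  set F : E → Cm 0 := fun _ => 0 with hF
  have hHE : HolE n p F := fun y e he => ⟨fun _ => 0, Eventually.of_forall fun _ => rfl,
    analyticAt_const⟩
  have huniv : ∀ t : Cm 0, F ⁻¹' {t} = univ := fun t => by
    ext y
    simp only [mem_preimage, mem_singleton_iff, mem_univ, iff_true]
    exact Subsingleton.elim _ _
  refine nul_of (K := ⊤) (F := F) (c := fun _ => 0) (t := 0) (y₀ := y₀) hG hHE
    (fun g y => by simp [hF])
    (fun _ _ => rfl) (finRep_top hfr) (fun K' _ hfi => ?_) (by rw [huniv]; exact isConnected_univ)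
    (fun y _ e f _ _ x => ⟨0, Subsingleton.elim _ _⟩) (vpot0 hΘ hpot F 0) (vequi0 hπ hb F 0 ⊤) rfl ?_
  · refine exists_compact_fib' hG hHE (c := fun _ => 0) (K := ⊤) (fun g y => by simp [hF])
      ⟨fun _ _ => by simp, fun R => ?_, ?_⟩ ⟨{1}, Set.finite_singleton 1, fun g _ =>
        ⟨1, rfl, trivial⟩⟩ hfi 0
    · exact Set.toFinite _
    · exact Subsingleton.elim _ _
  · filter_upwards [hv] with y hy _
    obtain ⟨e, he, ξ, hξ⟩ := hy
    refine ⟨e, he, ξ, fun f _ => Subsingleton.elim _ _, hξ⟩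

end

/-- **the core for `q = 0`** with `FinRep`: leaf data of full rank -/
theorem leaf0_of (hNS : NS2Stmt) {n : ℕ} {X : Type} [TopologicalSpace X] [T2Space X]
    [CompactSpace X] [ConnectedSpace X] [ChartedSpace (Cm n) X] [IsManifold 𝓘(ℂ, Cm n) ω X]
    {w : Chart n X → Cm n → Matrix (Fin n) (Fin n) ℂ} (hw : IsKahler w)
    {E Γ : Type} [TopologicalSpace E] [ConnectedSpace E] [Group Γ] [MulAction Γ E]
    {p : E → X} (hG : IsGalois Γ p) (hfr : FinRep Γ)
    {W : Type} [NormedAddCommGroup W] [InnerProductSpace ℂ W] [CompleteSpace W]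
    {π : Γ →* (W ≃ₗᵢ[ℂ] W)} {Θ : E → Chart n X → (Cm n →L[ℂ] W)} {u : E → W}
    (hΘ : H619.CForm n p W Θ) (hπ : Equi p π Θ) (hpot : Pot0 p Θ u)
    (hb : ∀ g : Γ, ∃ b : W, ∀ y, u (g • y) = π g (u y) + b)
    (hne : ∃ (y : E) (e : Chart n X), At e (p y) ∧ Θ y e ≠ 0) (F : E → Cm 0) :
    ∃ (r m : ℕ) (H : Type) (_ : NormedAddCommGroup H)
      (_ : InnerProductSpace ℂ H) (_ : CompleteSpace H)
      (v : E → Chart n X → (Fin (0 + (r + 1)) → Cm n) → H) (U : Γ → (H →ₗᵢ[ℂ] H))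
      (N : Cm 0 →L[ℂ] Cm 0) (𝒢 : Set E), 𝒢.Nonempty ∧
        LeafE (0 + (r + 1)) p F m v U π Θ N 𝒢 := by
  have hHB : HolB p w F 0 := by
    intro y e he
    refine ⟨fun _ => 0, Eventually.of_forall fun y' => Subsingleton.elim _ _,
      Eventually.of_forall fun z => differentiableAt_const _, fun v => ?_⟩
    simp
  obtain ⟨y₀, e₀, he₀, hne₀⟩ := hne
  rcases hNS n X w hw E Γ p hG 0 F (fun _ => 0) ⟨0, hHB⟩ (fun g y => Subsingleton.elim _ _)
    ⟨y₀, fun e f _ _ x => ⟨0, Subsingleton.elim _ _⟩⟩ W π _ Θ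
    (sRel0 hG hΘ hπ ⟨y₀, e₀, he₀, hne₀⟩ F) with hB | hL
  · exfalso
    obtain ⟨O, hO, ⟨y₁, hy₁⟩, hOa⟩ := hB
    obtain ⟨a, ha, hev⟩ := hOa y₁ hy₁
    refine ha (nul0 hG hfr hΘ hπ hpot hb (y₀ := y₁) ?_)
    filter_upwards [hev] with y hy
    obtain ⟨e, he, ξ, -, hξ⟩ := hy (Subsingleton.elim _ _)
    exact ⟨e, he, ξ, hξ⟩
  · obtain ⟨r, s, k, m, H, i1, i2, i3, v, U, N, 𝒢, hne, hL⟩ := hL
    have hk : k = 0 := by
      have h1 := LinearMap.finrank_le_finrank_of_injective (f := (N : Cm k →ₗ[ℂ] Cm 0)) hL.Ninj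
      simpa [Cm] using h1
    subst hk
    have hs : 0 + (r + 1) = s := by simpa using hL.dim
    subst hs
    exact ⟨r, m, H, i1, i2, i3, v, U, N, 𝒢, hne, hL⟩

/-- **the core for `q = 0`, classes without natural forms** (dominable manifolds) -/
theorem core0_noForm (hNS : NS2Stmt) {D : Cls} (hD : NoFormD D) {n : ℕ} {X : Type}
    [TopologicalSpace X] [T2Space X] [CompactSpace X] [ConnectedSpace X]
    [ChartedSpace (Cm n) X] [IsManifold 𝓘(ℂ, Cm n) ω X] {ι : Type} [Fintype ι] (J : PJ n X ι)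
    (hDX : D n X) {w : Chart n X → Cm n → Matrix (Fin n) (Fin n) ℂ} (hw : IsKahler w)
    {E Γ : Type} [TopologicalSpace E] [ConnectedSpace E] [Group Γ] [MulAction Γ E]
    {p : E → X} (hG : IsGalois Γ p) (hfr : FinRep Γ) : ¬ Lim0Concl (n := n) (Γ := Γ) p := by
  rintro ⟨W, i1, i2, i3, π, Θ, u, hΘ, hπ, hpot, hb, hne⟩
  obtain ⟨r, m, H, j1, j2, j3, v, U, N, 𝒢, ⟨y, hy⟩, hL⟩ :=
    leaf0_of hNS hw hG hfr hΘ hπ hpot hb hne fun _ => 0
  exact hD n X ι J hDX E Γ p hG (0 + (r + 1)) m (by omega) hL.m_pos H v hL.form y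
    (good_of_leaf hL rfl hy)

end Vale.Agent.P284.H501.T
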