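import Vale.Agent.P284.H501.T.LcnG
import Vale.Agent.P284.H650.T.Spec

/-!
# P284 (helper501), T3⁺, module T4a: the displacements near a good point
-/

open scoped Manifold ContDiff Topology InnerProductSpace ComplexConjugate
open Filter Set Metric

noncomputable section

set_option linter.unusedSectionVars false

namespace Vale.Agent.P284.H501.Lcn

open Vale.Agent.P272.K Vale.Agent.P284.H894.G Vale.Agent.P284.H894.V Vale.Agent.P284.H894.W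
  Vale.Agent.P284.H213.Grp Vale.Agent.P284.H619 Vale.Agent.P284.H573
  Vale.Agent.P284.H625 Vale.Agent.P284.H378 Vale.Agent.P284.H212 Vale.Agent.P284.H395
  Vale.Agent.P284.H494 Vale.Agent.P284.H650.T

section
variable {n q r k s m : ℕ} {X E Γ W H : Type} [TopologicalSpace X] [ChartedSpace (Cm n) X]
  [TopologicalSpace E] [Group Γ] [MulAction Γ E]
  [NormedAddCommGroup W] [InnerProductSpace ℂ W] [CompleteSpace W] [NormedAddCommGroup H]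
  [InnerProductSpace ℂ H] [CompleteSpace H] {p : E → X} {F : E → Cm q} {c : Γ → Cm q}
  {v : E → Chart n X → (Fin (q + r) → Cm n) → H}
  {U : Γ → (H →ₗᵢ[ℂ] H)} {π : Γ →* (W ≃ₗᵢ[ℂ] W)} {Θ : E → Chart n X → (Cm n →L[ℂ] W)}
  {J : W →SL[starRingEnd ℂ] W} {T : E → E → W}
  {N : Cm k →L[ℂ] Cm q} {z : E} {e : Chart n X} {b : Cm n → Cm (q + r)}
  {F0 : Cm (q + r) → W} {β : Cm (q + r) → Cm s} {γ : Cm s → H} {τ : Cm s → Cm q}
  {𝒢 : Set E}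

/-- the displacement of `κ` near a point over a regular value -/
theorem disp_loc (hG : IsGalois Γ p) (hT : TwoPot p F Θ J T)
    (hequi : ∀ (g : Γ) y e, Reg (n := n) p F y → At e (p y) → ∀ ξ ∈ VS p F y e,
      Θ (g • y) e ξ = π g (Θ y e ξ))
    (hRV : ∀ᶠ y in 𝓝 z, Reg (n := n) p F y) (hz : F z ∈ RV n p F) (he : At e (p z))
    {G : Cm n → W} (hP : JPot p F Θ z e G) {κ : Γ} (hκ : ∀ y, F (κ • y) = F y) :
    ∃ a : Cm q → W, AnalyticAt ℂ a (F z) ∧ ∀ᶠ y in 𝓝 z, T y (κ • y) =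
      (π κ (G (e (p y))) - G (e (p y)) + a (F y)) +
        J (π κ (G (e (p y))) - G (e (p y)) + a (F y)) := by
  have hpk : ∀ y' : E, p (κ • y') = p y' := fun y' => ((hG.orb y' (κ • y')).2 ⟨κ, rfl⟩).symm
  have hpk' : ∀ y' : E, p (κ⁻¹ • y') = p y' :=
    fun y' => ((hG.orb y' (κ⁻¹ • y')).2 ⟨κ⁻¹, rfl⟩).symm
  have hc : Tendsto (fun y'' : E => κ⁻¹ • y'') (𝓝 (κ • z)) (𝓝 z) := by
    have := (hG.cont κ⁻¹).tendsto (κ • z)
    rwa [inv_smul_smul] at this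
  have hP' : JPot p F Θ (κ • z) e (fun x => π κ (G x)) := by
    constructor
    · rw [hpk]
      exact (((π κ).toContinuousLinearEquiv : W →L[ℂ] W).analyticAt _).comp hP.an
    · have h1 : ∀ᶠ y in 𝓝 z, AnalyticAt ℂ G (e (p y)) :=
        (ev_iff hG.cov he (Q := fun z => AnalyticAt ℂ G z)).2 hP.an.eventually_analyticAt
      filter_upwards [hc.eventually hP.pot, hc.eventually h1, hc.eventually hRV,
        hc.eventually (at_ev hG.cov he)] with y h2 h3 h4 h5 ξ hξ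
      have h6 : VS p F (κ • (κ⁻¹ • y)) e = VS p F (κ⁻¹ • y) e := VS_smul hG hκ (κ⁻¹ • y) e
      have h7 := hequi κ (κ⁻¹ • y) e h4 h5 ξ (by rw [← h6, smul_inv_smul]; exact hξ)
      rw [smul_inv_smul] at h7
      rw [h7, ← h2 ξ (by rw [← h6, smul_inv_smul]; exact hξ), hpk']
      rw [hpk'] at h3
      have h8 : HasFDerivAt (fun x => π κ (G x))
          (((π κ).toContinuousLinearEquiv : W →L[ℂ] W) ∘L fderiv ℂ G (e (p y))) (e (p y)) :=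
        ((π κ).toContinuousLinearEquiv : W →L[ℂ] W).hasFDerivAt.comp _
          h3.differentiableAt.hasFDerivAt
      rw [h8.fderiv]
      rfl
  obtain ⟨a, ha, h1⟩ := hT.loc z (κ • z) e e G (fun x => π κ (G x)) (hκ z).symm hz he
    (by rw [hpk]; exact he) hP hP'
  refine ⟨a, ha, ?_⟩
  have h2 : Tendsto (fun y : E => (y, κ • y)) (𝓝 z) (𝓝 (z, κ • z)) := by
    rw [nhds_prod_eq]
    exact tendsto_id.prodMk (hG.cont κ).continuousAt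
  filter_upwards [h2.eventually h1] with y h3
  have h4 := h3 (hκ y).symm
  simp only [hpk] at h4
  exact h4

/-- increments of the displacement along the leaves -/
theorem lq (hG : IsGalois Γ p) (hE : LeafE s p F m v U π Θ N 𝒢) (hT : TwoPot p F Θ J T)
    (hequi : ∀ (g : Γ) y e, Reg (n := n) p F y → At e (p y) → ∀ ξ ∈ VS p F y e,
      Θ (g • y) e ξ = π g (Θ y e ξ))
    (hRV : ∀ᶠ y in 𝓝 z, Reg (n := n) p F y) (hz : F z ∈ RV n p F)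
    (hL : LC p F m v U π Θ N z e b F0 β γ τ) {κ : Γ} (hκ : ∀ y, F (κ • y) = F y) :
    ∃ V ∈ 𝓝 z, ∀ y₁ ∈ V, ∀ y₂ ∈ V, ∀ y₁' ∈ V, ∀ y₂' ∈ V, SL p v y₁ y₂ → SL p v y₁' y₂' →
      F y₁ = F y₁' → F y₂ = F y₂' →
      T y₂ (κ • y₂) - T y₁ (κ • y₁) = T y₂' (κ • y₂') - T y₁' (κ • y₁') := by
  have hP : JPot p F Θ z e (fun x => F0 (b x)) :=
    ⟨hL.F0an.comp hL.ban, hL.pot.mono fun y hy ξ hξ => (hy ξ hξ).symm⟩
  obtain ⟨a, -, h1⟩ := disp_loc hG hT hequi hRV hz hL.mem hP hκ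
  obtain ⟨V, hV, h2⟩ := q4E hG.cov hE hL
  refine ⟨V ∩ _, inter_mem hV h1, ?_⟩
  rintro y₁ ⟨v1, d1⟩ y₂ ⟨v2, d2⟩ y₁' ⟨v3, d3⟩ y₂' ⟨v4, d4⟩ s1 s2 f1 f2
  have h3 := h2 y₁ v1 y₂ v2 y₁' v3 y₂' v4 s1 s2 f1 f2
  rw [mem_setOf_eq] at d1 d2 d3 d4
  rw [d1, d2, d3, d4]
  have h5 : π κ (F0 (b (e (p y₂)))) - π κ (F0 (b (e (p y₁)))) =
      π κ (F0 (b (e (p y₂')))) - π κ (F0 (b (e (p y₁')))) := by
    rw [← map_sub, ← map_sub, h3]
  have h4 : (π κ (F0 (b (e (p y₂)))) - F0 (b (e (p y₂))) + a (F y₂)) -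
      (π κ (F0 (b (e (p y₁)))) - F0 (b (e (p y₁))) + a (F y₁)) =
      (π κ (F0 (b (e (p y₂')))) - F0 (b (e (p y₂'))) + a (F y₂')) -
      (π κ (F0 (b (e (p y₁')))) - F0 (b (e (p y₁'))) + a (F y₁')) := by
    rw [f1, f2]
    calc _ = (π κ (F0 (b (e (p y₂)))) - π κ (F0 (b (e (p y₁))))) -
          (F0 (b (e (p y₂))) - F0 (b (e (p y₁)))) + (a (F y₂') - a (F y₁')) := by abel
      _ = _ := by rw [h5, h3]; abel
  generalize π κ (F0 (b (e (p y₂)))) - F0 (b (e (p y₂))) + a (F y₂) = A₂ at h4 ⊢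
  generalize π κ (F0 (b (e (p y₁)))) - F0 (b (e (p y₁))) + a (F y₁) = A₁ at h4 ⊢
  generalize π κ (F0 (b (e (p y₂')))) - F0 (b (e (p y₂'))) + a (F y₂') = A₂' at h4 ⊢
  generalize π κ (F0 (b (e (p y₁')))) - F0 (b (e (p y₁'))) + a (F y₁') = A₁' at h4 ⊢
  have h6 : J A₂ - J A₁ = J A₂' - J A₁' := by rw [← map_sub, ← map_sub, h4]
  rw [add_sub_add_comm, h4, h6, ← add_sub_add_comm]

/-- the increments of `d` along the leaves of `y` and `y'` agree -/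
def QR (p : E → X) (v : E → Chart n X → (Fin (q + r) → Cm n) → H) (F : E → Cm q) (d : E → W)
    (y y' : E) : Prop :=
  ∃ V ∈ 𝓝 y, ∃ V' ∈ 𝓝 y', ∀ y₂ ∈ V, ∀ y₂' ∈ V', SL p v y y₂ → SL p v y' y₂' → F y₂ = F y₂' →
    d y₂ - d y = d y₂' - d y'

lemma QR.symm {d : E → W} {y y' : E} (h : QR p v F d y y') : QR p v F d y' y := by
  obtain ⟨V, hV, V', hV', h⟩ := h
  exact ⟨V', hV', V, hV, fun y₂ h1 y₂' h2 h3 h4 h5 => (h y₂' h2 y₂ h1 h4 h3 h5.symm).symm⟩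

theorem QR.trans (hp : IsCoveringMap p) (hE : LeafE s p F m v U π Θ N 𝒢) {d : E → W}
    {y y' y'' : E} (hy : y ∈ 𝒢) (hy' : y' ∈ 𝒢) (hF : F y = F y') (h : QR p v F d y y')
    (h' : QR p v F d y' y'') : QR p v F d y y'' := by
  obtain ⟨V, hV, V', hV', h⟩ := h
  obtain ⟨V₁, hV₁, V₂, hV₂, h'⟩ := h'
  obtain ⟨e, b, F0, β, γ, τ, hL⟩ := hE.chart y' hy'
  obtain ⟨e₁, b₁, F0₁, β₁, γ₁, τ₁, hL₁⟩ := hE.chart y hy
  obtain ⟨δ, hδ, h1⟩ := ex_leaf hp hE hL (inter_mem hV' hV₁)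
  refine ⟨_, inter_mem hV (co_leaf hp hE hL₁ hδ), V₂, hV₂, fun y₂ g1 y₂'' g2 g3 g4 g5 => ?_⟩
  obtain ⟨a, ha, g6⟩ := g1.2 g3
  obtain ⟨y₂', g7, g8, g9⟩ := h1 a ha
  have g10 : F y₂ = F y₂' := by rw [g6, g9, hF]
  rw [h y₂ g1.1 y₂' g7.1 g3 g8 g10]
  exact h' y₂' g7.2 y₂'' g2 g8 g4 (by rw [← g10, g5])

end

end Vale.Agent.P284.H501.Lcn
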