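import Vale.Agent.P284.H501.T.LcnQ
import Vale.Agent.P284.H212.LFe

/-!
# P284 (helper501), T3⁺, module T4a: the leaves near a good point of the covering
-/

open scoped Manifold ContDiff Topology InnerProductSpace ComplexConjugate
open Filter Set Metric

noncomputable section

set_option linter.unusedSectionVars false

namespace Vale.Agent.P284.H501.Lcn

open Vale.Agent.P272.K Vale.Agent.P284.H894.G Vale.Agent.P284.H894.V Vale.Agent.P284.H894.W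
  Vale.Agent.P284.H213.Grp Vale.Agent.P284.H619 Vale.Agent.P284.H573
  Vale.Agent.P284.H625 Vale.Agent.P284.H378 Vale.Agent.P284.H212 Vale.Agent.P284.H395
  Vale.Agent.P284.H573.GG

section rel
variable {n R : ℕ} {X : Type} [TopologicalSpace X] [ChartedSpace (Cm n) X] {E : Type}
  {H : Type} [NormedAddCommGroup H] [InnerProductSpace ℂ H]
  {p : E → X} {v : E → Chart n X → (Fin R → Cm n) → H}

/-- `v` spans the same line at `y` and `y'` -/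
def SL (p : E → X) (v : E → Chart n X → (Fin R → Cm n) → H) (y y' : E) : Prop :=
  ∃ x, OnL p v y x ∧ OnL p v y' x

lemma SL.symm {y y' : E} (h : SL p v y y') : SL p v y' y := by
  obtain ⟨x, h1, h2⟩ := h
  exact ⟨x, h2, h1⟩

lemma SL.trans {y y' y'' : E} (hz : H395.NZ p v y') (h : SL p v y y') (h' : SL p v y' y'') :
    SL p v y y'' := by
  obtain ⟨x, h1, h2⟩ := h
  obtain ⟨x', h3, h4⟩ := h'
  obtain ⟨a, ha, rfl⟩ := OnL.prop hz h3 h2
  refine ⟨a • x', h1, onL_mul ha h4⟩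

lemma SL.smul {Γ : Type} [Group Γ] [MulAction Γ E] {U : Γ → (H →ₗᵢ[ℂ] H)}
    (hU : ∀ g y (e : Chart n X), At e (p y) → ∀ ξ, v (g • y) e ξ = U g (v y e ξ))
    (hpsm : ∀ (g : Γ) (y : E), p (g • y) = p y) (g : Γ) {y y' : E} (h : SL p v y y') :
    SL p v (g • y) (g • y') := by
  have hs : ∀ {y : E} {x : H}, OnL p v y x → OnL p v (g • y) (U g x) := by
    intro y x hx
    refine ⟨fun h0 => hx.1 ((U g).injective (by rw [map_zero]; exact h0)), fun e he ξ => ?_⟩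
    have he' : At e (p y) := by rwa [hpsm] at he
    obtain ⟨a, ha⟩ := hx.2 e he' ξ
    exact ⟨a, by rw [hU _ _ e he', ha, map_smul]⟩
  obtain ⟨x, h1, h2⟩ := h
  exact ⟨U g x, hs h1, hs h2⟩

end rel

section
variable {n q r k s m : ℕ} {X E Γ W H : Type} [TopologicalSpace X] [ChartedSpace (Cm n) X]
  [TopologicalSpace E] [Group Γ] [MulAction Γ E]
  [NormedAddCommGroup W] [InnerProductSpace ℂ W] [CompleteSpace W] [NormedAddCommGroup H]
  [InnerProductSpace ℂ H] [CompleteSpace H] {p : E → X} {F : E → Cm q}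
  {v : E → Chart n X → (Fin (q + r) → Cm n) → H}
  {U : Γ → (H →ₗᵢ[ℂ] H)} {π : Γ →* (W ≃ₗᵢ[ℂ] W)} {Θ : E → Chart n X → (Cm n →L[ℂ] W)}
  {N : Cm k →L[ℂ] Cm q} {z : E} {e : Chart n X} {b : Cm n → Cm (q + r)}
  {F0 : Cm (q + r) → W} {β : Cm (q + r) → Cm s} {γ : Cm s → H} {τ : Cm s → Cm q}
  {𝒢 : Set E}

/-- the map `b ∘ e ∘ p` is open and continuous -/
theorem map_b (hp : IsCoveringMap p) (hL : LC p F m v U π Θ N z e b F0 β γ τ) :
    map (fun y => b (e (p y))) (𝓝 z) = 𝓝 (b (e (p z))) := by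
  rw [← hL.ban.hasStrictFDerivAt.map_nhds_eq_of_surj (LinearMap.range_eq_top.2 hL.bsurj),
    ← map_ep hp hL.mem, map_map]
  rfl

theorem tend_b (hp : IsCoveringMap p) (hL : LC p F m v U π Θ N z e b F0 β γ τ) :
    Tendsto (fun y => b (e (p y))) (𝓝 z) (𝓝 (b (e (p z)))) := (map_b hp hL).le

/-- an eventual property of `b (e (p y'))` is an eventual property of the points of `ℂ^(q+r)` -/
theorem ev_b (hp : IsCoveringMap p) (hL : LC p F m v U π Θ N z e b F0 β γ τ)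
    {Q : Cm (q + r) → Prop} :
    (∀ᶠ y in 𝓝 z, Q (b (e (p y)))) ↔ ∀ᶠ x in 𝓝 (b (e (p z))), Q x := by
  rw [← map_b hp hL]
  exact Iff.rfl

/-- near a good point the relation `SL` is equality of `β` -/
theorem sl_iff (hp : IsCoveringMap p) (hform : HForm n (q + r) m p H v)
    (hL : LC p F m v U π Θ N z e b F0 β γ τ) :
    ∃ V ∈ 𝓝 z, ∀ y ∈ V, H395.NZ p v y ∧ ∀ y' ∈ V, SL p v y y' ↔
      β (b (e (p y))) = β (b (e (p y'))) := by
  obtain ⟨CP, -⟩ := exists_pc hL.γan hL.imm one_pos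
  have hon := lc_onL hp hform hL
  have hβc : ContinuousAt (fun y => β (b (e (p y)))) z := hon.self_of_nhds.1
  refine ⟨{y | (H395.NZ p v y ∧ OnL p v y (γ (β (b (e (p y)))))) ∧
    β (b (e (p y))) ∈ ball (β (b (e (p z)))) CP.r₁}, ?_, fun y hy => ⟨hy.1.1, fun y' hy' => ?_⟩⟩
  · filter_upwards [hon, hβc.eventually (ball_mem_nhds _ CP.r₁_pos)] with y h1 h2
    exact ⟨h1.2.2, h2⟩
  · constructor
    · rintro ⟨x, h1, h2⟩
      obtain ⟨a, ha, h3⟩ := OnL.prop hy.1.1 hy.1.2 h1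
      obtain ⟨a', ha', h4⟩ := OnL.prop hy'.1.1 hy'.1.2 h2
      refine CP.inj hy.2 hy'.2 (a := a⁻¹ * a') (mul_ne_zero (inv_ne_zero ha) ha') ?_
      rw [mul_smul, ← h4, h3, smul_smul, inv_mul_cancel₀ ha, one_smul]
    · intro h
      refine ⟨_, hy.1.2, ?_⟩
      rw [h]
      exact hy'.1.2

/-- motion along the leaf -/
theorem ex_leaf (hp : IsCoveringMap p) (hE : LeafE s p F m v U π Θ N 𝒢)
    (hL : LC p F m v U π Θ N z e b F0 β γ τ) {O : Set E} (hO : O ∈ 𝓝 z) :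
    ∃ δ > 0, ∀ a : Cm k, ‖a‖ < δ → ∃ y ∈ O, SL p v z y ∧ F y = F z + N a := by
  obtain ⟨P, hP⟩ := exists_P hE.Ninj
  obtain ⟨I, hI, hI1, hI2⟩ := exists_coord hE.dim hP hL.βan hL.trans hL.τan hL.leaf
  have hNP : ∀ y ∈ LinearMap.range (N : Cm k →ₗ[ℂ] Cm q), N (P y) = y := by
    rintro _ ⟨x, rfl⟩
    simp only [ContinuousLinearMap.coe_coe, hP]
  obtain ⟨V, hV, hSL⟩ := sl_iff hp hE.form hL
  set x₀ := b (e (p z)) with hx₀
  set z₀ : Cm s × Cm k := (β x₀, P (tq x₀)) with hz₀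
  have hI0 : I z₀ = x₀ := hI1.self_of_nhds
  have hIc : Tendsto I (𝓝 z₀) (𝓝 x₀) := by
    have := hI.continuousAt.tendsto
    rwa [hI0] at this
  have h1 : (fun y => b (e (p y))) '' (O ∩ V ∩ {y | F y = tq (b (e (p y)))}) ∈ 𝓝 x₀ := by
    rw [← map_b hp hL]
    exact image_mem_map (inter_mem (inter_mem hO hV) hL.t_eq)
  have h2 : Tendsto (fun a : Cm k => ((β x₀, P (tq x₀) + a) : Cm s × Cm k)) (𝓝 0) (𝓝 z₀) := by
    have h3 : Continuous fun a : Cm k => ((β x₀, P (tq x₀) + a) : Cm s × Cm k) := by fun_prop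
    have := h3.tendsto 0
    simpa only [add_zero] using this
  have h3 : ∀ᶠ a : Cm k in 𝓝 0,
      I (β x₀, P (tq x₀) + a) ∈ (fun y => b (e (p y))) '' (O ∩ V ∩ {y | F y = tq (b (e (p y)))}) ∧
      (β (I (β x₀, P (tq x₀) + a)) = β x₀ ∧
        P (tq (I (β x₀, P (tq x₀) + a))) = P (tq x₀) + a) ∧
      tq (I (β x₀, P (tq x₀) + a)) - τ (β (I (β x₀, P (tq x₀) + a))) ∈
        LinearMap.range (N : Cm k →ₗ[ℂ] Cm q) :=
    h2.eventually ((hIc.eventually h1).and (hI2.and (hIc.eventually hL.leaf)))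
  obtain ⟨δ, hδ, hδb⟩ := Metric.eventually_nhds_iff_ball.1 h3
  refine ⟨δ, hδ, fun a ha => ?_⟩
  obtain ⟨⟨y, ⟨⟨hyO, hyV⟩, hyt⟩, hyx⟩, ⟨h5, h6⟩, h7⟩ := hδb a (mem_ball_zero_iff.2 ha)
  simp only at hyx
  rw [← hyx] at h5 h6 h7
  refine ⟨y, hyO, ((hSL z (mem_of_mem_nhds hV)).2 y hyV).2 h5.symm, ?_⟩
  have h8 := hL.leaf.self_of_nhds
  rw [← hx₀] at h8
  rw [h5] at h7
  have h9 := hNP _ (Submodule.sub_mem _ h7 h8)
  have h10 : tq (b (e (p y))) - τ (β x₀) - (tq x₀ - τ (β x₀)) = tq (b (e (p y))) - tq x₀ := by abel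
  rw [h10, map_sub, h6, add_sub_cancel_left] at h9
  have h11 : F y = tq (b (e (p y))) := hyt
  rw [h11, hL.t_eq.self_of_nhds, h9, ← hx₀]
  abel

/-- the motion of `F` along the leaf -/
theorem co_leaf (hp : IsCoveringMap p) (hE : LeafE s p F m v U π Θ N 𝒢)
    (hL : LC p F m v U π Θ N z e b F0 β γ τ) {δ : ℝ} (hδ : 0 < δ) :
    ∀ᶠ y in 𝓝 z, SL p v z y → ∃ a : Cm k, ‖a‖ < δ ∧ F y = F z + N a := by
  obtain ⟨P, hP⟩ := exists_P hE.Ninj
  have hNP : ∀ y ∈ LinearMap.range (N : Cm k →ₗ[ℂ] Cm q), N (P y) = y := by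
    rintro _ ⟨x, rfl⟩
    simp only [ContinuousLinearMap.coe_coe, hP]
  obtain ⟨V, hV, hSL⟩ := sl_iff hp hE.form hL
  set x₀ := b (e (p z)) with hx₀
  have htc : Tendsto (fun x : Cm (q + r) => P (tq x)) (𝓝 x₀) (𝓝 (P (tq x₀))) :=
    (P.continuous.comp (tqc q r).continuous).tendsto x₀
  filter_upwards [hV, hL.t_eq, (tend_b hp hL).eventually hL.leaf,
    (tend_b hp hL).eventually (htc.eventually (ball_mem_nhds _ hδ))] with y h1 h2 h3 h4 h5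
  have h6 := ((hSL z (mem_of_mem_nhds hV)).2 y h1).1 h5
  rw [← hx₀] at h6
  refine ⟨P (tq (b (e (p y)))) - P (tq x₀), ?_, ?_⟩
  · rw [← dist_eq_norm]
    exact h4
  · have h8 := hL.leaf.self_of_nhds
    rw [← hx₀] at h8
    rw [← h6] at h3
    have h9 := hNP _ (Submodule.sub_mem _ h3 h8)
    have h10 : tq (b (e (p y))) - τ (β x₀) - (tq x₀ - τ (β x₀)) = tq (b (e (p y))) - tq x₀ := by
      abel
    rw [h10, map_sub] at h9
    rw [h2, hL.t_eq.self_of_nhds, h9, ← hx₀]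
    abel

/-- translations along the leaves preserve `F0` up to functions of `F` -/
theorem q4E (hp : IsCoveringMap p) (hE : LeafE s p F m v U π Θ N 𝒢)
    (hL : LC p F m v U π Θ N z e b F0 β γ τ) :
    ∃ V ∈ 𝓝 z, ∀ y₁ ∈ V, ∀ y₂ ∈ V, ∀ y₁' ∈ V, ∀ y₂' ∈ V, SL p v y₁ y₂ → SL p v y₁' y₂' →
      F y₁ = F y₁' → F y₂ = F y₂' →
      F0 (b (e (p y₂))) - F0 (b (e (p y₁))) = F0 (b (e (p y₂'))) - F0 (b (e (p y₁'))) := by
  obtain ⟨V, hV, hSL⟩ := sl_iff hp hE.form hL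
  have hon := lc_onL hp hE.form hL
  have hU1 : ∀ᶠ x in 𝓝 (b (e (p z))), U 1 (γ (β x)) = γ (β x) := by
    rw [← ev_b hp hL]
    filter_upwards [hon] with y hy
    exact U_one hE.equi hy.2.2.1 hy.2.2.2
  obtain ⟨ρ₁, hρ₁, hU1⟩ := Metric.eventually_nhds_iff_ball.1 hU1
  obtain ⟨ρs, hρs, hsheet⟩ := hL.sheet
  obtain ⟨ρ, hρ, hq4⟩ := q4 hE.dim hE.Ninj hL.βan hL.trans hL.τan hL.leaf hL.F0an
    ⟨min ρ₁ ρs, lt_min hρ₁ hρs, fun x₁ hx₁ ψ h1 h2 h3 h4 => by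
      have h5 := hsheet 1 x₁ (ball_subset_ball (min_le_right _ _) hx₁) ψ h1
        (ball_subset_ball (min_le_right _ _) h2) h3 (by
          filter_upwards [h4, isOpen_ball.mem_nhds (ball_subset_ball (min_le_left ρ₁ ρs) hx₁)]
            with x h6 h7
          exact ⟨1, by rw [hU1 x h7, h6, one_smul]⟩)
      filter_upwards [h5] with x h6 ζ hζ
      rw [h6 ζ hζ, map_one]
      rfl⟩
  refine ⟨V ∩ {y | F y = tq (b (e (p y))) ∧ b (e (p y)) ∈ ball (b (e (p z))) ρ},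
    inter_mem hV (hL.t_eq.and ((tend_b hp hL).eventually (ball_mem_nhds _ hρ))), ?_⟩
  rintro y₁ ⟨hy₁, h1, h1'⟩ y₂ ⟨hy₂, h2, h2'⟩ y₁' ⟨hy₁', h3, h3'⟩ y₂' ⟨hy₂', h4, h4'⟩ s1 s2 f1 f2
  exact hq4 _ h1' _ h2' _ h3' _ h4' (((hSL y₁ hy₁).2 y₂ hy₂).1 s1)
    (((hSL y₁' hy₁').2 y₂' hy₂').1 s2) (by rw [← h1, ← h3, f1]) (by rw [← h2, ← h4, f2])

end

end Vale.Agent.P284.H501.Lcn
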