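import Vale.Agent.P284.H501.T.LcnD
import Vale.Agent.P284.H221.C6
import Mathlib.Order.Filter.Germ.Basic

/-!
# P284 (helper501), T3⁺, module T4a: the displacements over the generic fibres
-/

open scoped Manifold ContDiff Topology InnerProductSpace ComplexConjugate
open Filter Set Metric

noncomputable section

set_option linter.unusedSectionVars false

namespace Vale.Agent.P284.H501.Lcn

open Vale.Agent.P272.K Vale.Agent.P284.H894.G Vale.Agent.P284.H894.V Vale.Agent.P284.H894.W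
  Vale.Agent.P284.H213.Grp Vale.Agent.P284.H619 Vale.Agent.P284.H573
  Vale.Agent.P284.H625 Vale.Agent.P284.H378 Vale.Agent.P284.H212 Vale.Agent.P284.H395
  Vale.Agent.P284.H494 Vale.Agent.P284.H650.T

section
variable {n q r k s m : ℕ} {X E Γ W H : Type} [TopologicalSpace X] [ChartedSpace (Cm n) X]
  [TopologicalSpace E] [Group Γ] [MulAction Γ E]
  [NormedAddCommGroup W] [InnerProductSpace ℂ W] [CompleteSpace W] [NormedAddCommGroup H]
  [InnerProductSpace ℂ H] [CompleteSpace H] {p : E → X} {F : E → Cm q} {c : Γ → Cm q}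
  {v : E → Chart n X → (Fin (q + r) → Cm n) → H}
  {U : Γ → (H →ₗᵢ[ℂ] H)} {π : Γ →* (W ≃ₗᵢ[ℂ] W)} {Θ : E → Chart n X → (Cm n →L[ℂ] W)}
  {J : W →SL[starRingEnd ℂ] W} {T : E → E → W}
  {N : Cm k →L[ℂ] Cm q} {𝒢 : Set E} {K : Subgroup Γ} {t : Cm q}

/-- over a generic fibre the displacements are locally constant along the leaves -/
theorem gen_fix (hG : IsGalois Γ p) (hE : LeafE s p F m v U π Θ N 𝒢) (hT : TwoPot p F Θ J T)
    (hequi : ∀ (g : Γ) y e, Reg (n := n) p F y → At e (p y) → ∀ ξ ∈ VS p F y e,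
      Θ (g • y) e ξ = π g (Θ y e ξ))
    (hRVo : IsOpen (RV n p F)) (hFc : Continuous F) (hK : ∀ κ ∈ K, ∀ y, F (κ • y) = F y)
    (hfg : Group.FG K) (hnvi : ¬ VirtIndicable K) (ht : t ∈ RV n p F)
    (hconn : IsPreconnected (F ⁻¹' {t} ∩ 𝒢)) {y : E} (hy : y ∈ 𝒢) (hyt : F y = t) {κ : Γ}
    (hκ : κ ∈ K) : ∀ᶠ y₂ in 𝓝 y, SL p v y y₂ → T y₂ (κ • y₂) = T y (κ • y) := by
  have hpsm : ∀ (g : Γ) (y : E), p (g • y) = p y :=
    fun g y' => ((hG.orb y' (g • y')).2 ⟨g, rfl⟩).symm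
  have hRV : ∀ x : E, F x = t → ∀ᶠ y in 𝓝 x, F y ∈ RV n p F := fun x hx =>
    hFc.continuousAt.eventually (by rw [hx]; exact hRVo.mem_nhds ht)
  have hreg : ∀ x : E, F x = t → ∀ᶠ y in 𝓝 x, Reg (n := n) p F y := fun x hx =>
    (hRV x hx).mono fun y h => h y rfl
  -- the increments are the same at all good points of the fibre
  have hQ : ∀ κ ∈ K, ∀ a ∈ F ⁻¹' {t} ∩ 𝒢, ∀ b ∈ F ⁻¹' {t} ∩ 𝒢,
      QR p v F (fun y => T y (κ • y)) a b := by
    intro κ hκ a ha b hb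
    refine hconn.induction₂' (QR p v F (fun y => T y (κ • y))) (fun x hx => ?_)
      (fun x x' x'' hx hx' _ h1 h2 => h1.trans hG.cov hE hx.2 hx'.2 (hx.1.trans hx'.1.symm) h2)
      ha hb
    obtain ⟨e, b, F0, β, γ, τ, hL⟩ := hE.chart x hx.2
    obtain ⟨V, hV, h1⟩ := lq hG hE hT hequi (hreg x hx.1)
      (by rw [show F x = t from hx.1]; exact ht) hL (hK κ hκ)
    have h2 : ∀ᶠ x' in 𝓝[F ⁻¹' {t} ∩ 𝒢] x, V ∈ 𝓝 x' ∧ F x' = t := by
      filter_upwards [mem_nhdsWithin_of_mem_nhds (eventually_mem_nhds_iff.2 hV),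
        self_mem_nhdsWithin] with x' g1 g2
      exact ⟨g1, g2.1⟩
    filter_upwards [h2] with x' hx'
    have h3 : QR p v F (fun y => T y (κ • y)) x x' :=
      ⟨V, hV, V, hx'.1, fun y₂ g1 y₂' g2 g3 g4 g5 => h1 x (mem_of_mem_nhds hV) y₂ g1 x'
        (mem_of_mem_nhds hx'.1) y₂' g2 g3 g4 (by rw [hx'.2]; exact hx.1) g5⟩
    exact ⟨h3, h3.symm⟩
  set l : Filter E := 𝓝 y ⊓ 𝓟 {y₂ | SL p v y y₂} with hl
  set f : K → Germ l W := fun κ => ((fun y₂ : E => T y₂ ((κ : Γ) • y₂) - T y ((κ : Γ) • y) : E → W) :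
    Germ l W) with hf
  have hadd : ∀ κ κ' : K, f (κ * κ') = f κ + f κ' := by
    intro κ κ'
    rw [hf]
    simp only
    rw [← Germ.coe_add, Germ.coe_eq]
    have hy' : (κ' : Γ) • y ∈ 𝒢 := hE.inv _ _ hy
    obtain ⟨V, hV, V', hV', h1⟩ := hQ κ κ.2 y ⟨hyt, hy⟩ ((κ' : Γ) • y)
      ⟨by rw [mem_preimage, hK _ κ'.2]; exact hyt, hy'⟩
    rw [Filter.EventuallyEq, hl, eventually_inf_principal]
    filter_upwards [hV, (hG.cont κ').continuousAt.eventually hV', hRV y hyt] with y₂ g1 g2 g3 g4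
    have g5 := h1 y₂ g1 _ g2 g4 (SL.smul hE.equi hpsm κ' g4) (hK _ κ'.2 _).symm
    have g6 : ∀ x : E, F x ∈ RV n p F → T x (((κ * κ' : K) : Γ) • x) =
        T x ((κ' : Γ) • x) + T ((κ' : Γ) • x) ((κ : Γ) • (κ' : Γ) • x) := by
      intro x hx
      rw [hT.add _ _ _ (hK _ κ'.2 _).symm (hK _ κ.2 _).symm hx, Subgroup.coe_mul, mul_smul]
    rw [g6 y₂ g3, g6 y (by rw [hyt]; exact ht)]
    simp only [Pi.add_apply]
    rw [g5]
    abel
  have h0 := Vale.Agent.P284.H221.hom_zero hfg hnvi f hadd ⟨κ, hκ⟩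
  have h1 : ((fun y₂ : E => T y₂ (κ • y₂) - T y (κ • y) : E → W) : Germ l W) =
      ((0 : E → W) : Germ l W) := h0
  rw [Germ.coe_eq, Filter.EventuallyEq, hl, eventually_inf_principal] at h1
  filter_upwards [h1] with y₂ h2 h3
  exact sub_eq_zero.1 (h2 h3)

end

end Vale.Agent.P284.H501.Lcn
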