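import Vale.Agent.P284.H501.T.LcnE
import Vale.Agent.P284.H221.GFS
import Vale.Agent.P284.H573.DK.Main

/-!
# P284 (helper501), T3⁺, module T4a: the good points of the generic fibres
-/

open scoped Manifold ContDiff Topology InnerProductSpace ComplexConjugate
open Filter Set Metric

noncomputable section

set_option linter.unusedSectionVars false
set_option linter.style.haveILetI false

namespace Vale.Agent.P284.H501.Lcn

open Vale.Agent.P272.K Vale.Agent.P284.H894.G Vale.Agent.P284.H894.V Vale.Agent.P284.H894.W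
  Vale.Agent.P284.H213.Grp Vale.Agent.P284.H619 Vale.Agent.P284.H573 Vale.Agent.P284.H10
  Vale.Agent.P284.H625 Vale.Agent.P284.H378 Vale.Agent.P284.H212 Vale.Agent.P284.H395
  Vale.Agent.P284.H885.DK
open Vale.Agent.P281.H64.Thin (IsThinSet)

section
variable {n q : ℕ} {X E : Type} [TopologicalSpace X] [ChartedSpace (Cm n) X]
  [TopologicalSpace E] {p : E → X} {F : E → Cm q} {t : Cm q}
  {w : Chart n X → Cm n → Matrix (Fin n) (Fin n) ℂ} {B : ℝ} {𝒢 : Set E}

/-- the good points of a connected regular fibre form a preconnected set -/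
theorem fib_good [T2Space X] [IsManifold 𝓘(ℂ, Cm n) ω X] (hp : IsCoveringMap p)
    (hF : HolB p w F B) (hconn : IsConnected (F ⁻¹' {t}))
    (hreg : ∀ y, F y = t → Reg (n := n) p F y) (hG : IsOpen 𝒢)
    (hth : ∀ (y : E) (e : Chart n X), F y = t → At e (p y) → ∃ h : Cm n → ℂ,
      AnalyticAt ℂ h (e (p y)) ∧ (∃ᶠ y' in 𝓝 y, F y' = t ∧ h (e (p y')) ≠ 0) ∧
      ∀ᶠ y' in 𝓝 y, h (e (p y')) ≠ 0 → y' ∈ 𝒢) :
    IsPreconnected (F ⁻¹' {t} ∩ 𝒢) := by
  obtain ⟨y₀, hy₀⟩ := hconn.nonempty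
  have he : At (chartAt (Cm n) (p y₀)) (p y₀) := ⟨chart_mem_atlas _ _, mem_chart_source _ _⟩
  obtain ⟨f, h1, h2⟩ := H221.holB_an hF y₀ he
  obtain ⟨d, hd⟩ := Nat.exists_eq_add_of_le (N_le_n (hreg y₀ hy₀ _ f he h2))
  have h : HCh d n p F t := hch_of hd hp hF hreg
  letI := fibCS h
  haveI : IsManifold 𝓘(ℂ, Cm d) ω (F ⁻¹' {t}) := fib_manifold h
  haveI : T2Space E := H35.S4.t2_of_cov hp
  haveI : ConnectedSpace (F ⁻¹' {t}) := isConnected_iff_connectedSpace.1 hconn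
  set G : Set (F ⁻¹' {t}) := {x | (x : E) ∈ 𝒢} with hGdef
  have hT : IsThinSet (Cm d) Gᶜ := by
    refine ⟨(hG.preimage continuous_subtype_val).isClosed_compl, fun y => ?_⟩
    obtain ⟨h', h1, h2, h3⟩ := thin_fib h hth y
    have h1' : H573.DK.Hol d h' y := H573.DK.hol_of_anM h1
    refine ⟨h', h1', not_eventually.2 h2, ?_⟩
    filter_upwards [h3] with z hz hzG
    by_contra hcon
    exact hzG (hz hcon)
  have h3 := H573.DK.pre_open isOpen_univ isPreconnected_univ hT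
  have h4 : F ⁻¹' {t} ∩ 𝒢 = Subtype.val '' ((univ : Set (F ⁻¹' {t})) \ Gᶜ) := by
    ext y
    constructor
    · rintro ⟨g1, g2⟩
      exact ⟨⟨y, g1⟩, ⟨mem_univ _, not_not.2 g2⟩, rfl⟩
    · rintro ⟨x, ⟨-, g2⟩, rfl⟩
      exact ⟨x.2, not_not.1 g2⟩
  rw [h4]
  exact h3.image _ continuous_subtype_val.continuousOn

end

end Vale.Agent.P284.H501.Lcn
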