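import Vale.Agent.P284.H573.G.Near

/-!
# P284 (helper501), T3⁺, module T4a: translations along the leaves
-/

open scoped Manifold ContDiff Topology InnerProductSpace ComplexConjugate
open Filter Set Metric

noncomputable section

set_option linter.unusedSectionVars false

namespace Vale.Agent.P284.H501.Lcn

open Vale.Agent.P272.K Vale.Agent.P284.H894.G Vale.Agent.P284.H894.V Vale.Agent.P284.H894.W
  Vale.Agent.P284.H213.Grp Vale.Agent.P284.H619 Vale.Agent.P284.H573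
  Vale.Agent.P284.H625 Vale.Agent.P284.H378 Vale.Agent.P284.H212 Vale.Agent.P284.H395
  Vale.Agent.P284.H573.GG

section coord
variable {q r k s : ℕ} {W : Type} [NormedAddCommGroup W] [InnerProductSpace ℂ W]

lemma exists_P {N : Cm k →L[ℂ] Cm q} (hN : Function.Injective N) :
    ∃ P : Cm q →L[ℂ] Cm k, ∀ x, P (N x) = x := by
  obtain ⟨g, hg⟩ := LinearMap.exists_leftInverse_of_injective (N : Cm k →ₗ[ℂ] Cm q)
    (LinearMap.ker_eq_bot.2 hN)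
  exact ⟨LinearMap.toContinuousLinearMap g, fun x => LinearMap.congr_fun hg x⟩

/-- translations along the leaves preserve `F0` up to functions of `tq` -/
theorem q4 [CompleteSpace W] (hdim : q + r = s + k) {N : Cm k →L[ℂ] Cm q}
    (hN : Function.Injective N) {x₀ : Cm (q + r)} {β : Cm (q + r) → Cm s} {τ : Cm s → Cm q}
    (hβ : AnalyticAt ℂ β x₀) (htr : ∀ ζ : Cm (q + r), tq ζ = 0 → fderiv ℂ β x₀ ζ = 0 → ζ = 0)
    (hτ : AnalyticAt ℂ τ (β x₀))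
    (hleaf : ∀ᶠ x in 𝓝 x₀, tq x - τ (β x) ∈ LinearMap.range (N : Cm k →ₗ[ℂ] Cm q))
    {F0 : Cm (q + r) → W} (hF0 : AnalyticAt ℂ F0 x₀)
    (hsheet : ∃ ρ > 0, ∀ x₁ ∈ ball x₀ ρ, ∀ ψ : Cm (q + r) → Cm (q + r),
      AnalyticAt ℂ ψ x₁ → ψ x₁ ∈ ball x₀ ρ →
      (∃ c : Cm q, ∀ᶠ x in 𝓝 x₁, tq (ψ x) = tq x + c) →
      (∀ᶠ x in 𝓝 x₁, β (ψ x) = β x) →
      ∀ᶠ x in 𝓝 x₁, ∀ ζ : Cm (q + r), tq ζ = 0 →
        fderiv ℂ (fun x => F0 (ψ x)) x ζ = fderiv ℂ F0 x ζ) :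
    ∃ ρ > 0, ∀ x₁ ∈ ball x₀ ρ, ∀ x₂ ∈ ball x₀ ρ, ∀ x₁' ∈ ball x₀ ρ, ∀ x₂' ∈ ball x₀ ρ,
      β x₁ = β x₂ → β x₁' = β x₂' → tq x₁ = tq x₁' → tq x₂ = tq x₂' →
      F0 x₂ - F0 x₁ = F0 x₂' - F0 x₁' := by
  obtain ⟨P, hP⟩ := exists_P hN
  obtain ⟨I, hI, hI1, hI2⟩ := exists_coord hdim hP hβ htr hτ hleaf
  obtain ⟨ρs, hρs, hsheet⟩ := hsheet
  have hNP : ∀ y ∈ LinearMap.range (N : Cm k →ₗ[ℂ] Cm q), N (P y) = y := by
    rintro _ ⟨x, rfl⟩
    simp only [ContinuousLinearMap.coe_coe, hP]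
  set z₀ : Cm s × Cm k := (β x₀, P (tq x₀)) with hz₀
  have hI0 : I z₀ = x₀ := hI1.self_of_nhds
  have hIc : Tendsto I (𝓝 z₀) (𝓝 x₀) := by
    have := hI.continuousAt.tendsto
    rwa [hI0] at this
  have e1 : ∀ᶠ z in 𝓝 z₀, AnalyticAt ℂ I z ∧ (β (I z) = z.1 ∧ P (tq (I z)) = z.2) ∧
      tq (I z) - τ (β (I z)) ∈ LinearMap.range (N : Cm k →ₗ[ℂ] Cm q) ∧
      AnalyticAt ℂ F0 (I z) ∧ I z ∈ ball x₀ ρs :=
    hI.eventually_analyticAt.and (hI2.and ((hIc.eventually hleaf).and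
      ((hIc.eventually hF0.eventually_analyticAt).and
        (hIc.eventually (ball_mem_nhds x₀ hρs)))))
  obtain ⟨R1, hR1, he1⟩ := Metric.eventually_nhds_iff_ball.1 e1
  have hβc : Tendsto β (𝓝 x₀) (𝓝 (β x₀)) := hβ.continuousAt.tendsto
  have htc : Tendsto (fun x : Cm (q + r) => P (tq x)) (𝓝 x₀) (𝓝 (P (tq x₀))) :=
    (P.continuous.comp (tqc q r).continuous).tendsto x₀
  have e2 : ∀ᶠ x in 𝓝 x₀, β x ∈ ball (β x₀) R1 ∧
      P (tq x) ∈ ball (P (tq x₀)) (R1 / 3) ∧ I (β x, P (tq x)) = x ∧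
      tq x - τ (β x) ∈ LinearMap.range (N : Cm k →ₗ[ℂ] Cm q) ∧ AnalyticAt ℂ β x ∧
      AnalyticAt ℂ F0 x ∧ x ∈ ball x₀ ρs :=
    (hβc.eventually (ball_mem_nhds _ hR1)).and
      ((htc.eventually (ball_mem_nhds _ (by positivity))).and (hI1.and (hleaf.and
        (hβ.eventually_analyticAt.and (hF0.eventually_analyticAt.and (ball_mem_nhds _ hρs))))))
  obtain ⟨R2, hR2, he2⟩ := Metric.eventually_nhds_iff_ball.1 e2
  refine ⟨R2, hR2, fun x₁ hx₁ x₂ hx₂ x₁' hx₁' x₂' hx₂' hb hb' ht1 ht2 => ?_⟩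
  set a : Cm k := P (tq x₂) - P (tq x₁) with ha
  have ha' : P (tq x₂') - P (tq x₁') = a := by rw [← ht1, ← ht2]
  have han : ‖a‖ < 2 * (R1 / 3) := by
    have h1 := (he2 x₁ hx₁).2.1
    have h2 := (he2 x₂ hx₂).2.1
    rw [mem_ball] at h1 h2
    have h3 := dist_triangle_right (P (tq x₂)) (P (tq x₁)) (P (tq x₀))
    rw [dist_eq_norm] at h3
    rw [ha]
    linarith
  set ψ : Cm (q + r) → Cm (q + r) := fun x => I (β x, P (tq x) + a) with hψ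
  have hz : ∀ x ∈ ball x₀ R2, (β x, P (tq x) + a) ∈ ball z₀ R1 := by
    intro x hx
    obtain ⟨a1, a2, -⟩ := he2 x hx
    rw [← ball_prod_same, mem_prod]
    refine ⟨a1, ?_⟩
    rw [mem_ball, dist_eq_norm] at a2 ⊢
    show ‖P (tq x) + a - P (tq x₀)‖ < R1
    calc ‖P (tq x) + a - P (tq x₀)‖ = ‖(P (tq x) - P (tq x₀)) + a‖ := by congr 1; abel
      _ ≤ ‖P (tq x) - P (tq x₀)‖ + ‖a‖ := norm_add_le _ _
      _ < R1 := by linarith
  have hψan : ∀ x ∈ ball x₀ R2, AnalyticAt ℂ ψ x := by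
    intro x hx
    obtain ⟨a1, a2, a3, a4, a5, -⟩ := he2 x hx
    have b2 : AnalyticAt ℂ (fun x : Cm (q + r) => P (tq x) + a) x :=
      ((P ∘L tqc q r).analyticAt x).add analyticAt_const
    exact AnalyticAt.fun_comp (he1 _ (hz x hx)).1 (a5.prod b2)
  have hβψ : ∀ x ∈ ball x₀ R2, β (ψ x) = β x := fun x hx => (he1 _ (hz x hx)).2.1.1
  have htψ : ∀ x ∈ ball x₀ R2, tq (ψ x) = tq x + N a := by
    intro x hx
    obtain ⟨a1, a2, a3, a4, a5, -⟩ := he2 x hx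
    obtain ⟨b1, ⟨b2, b3⟩, b4, -⟩ := he1 _ (hz x hx)
    change β (ψ x) = β x at b2
    change P (tq (ψ x)) = P (tq x) + a at b3
    change tq (ψ x) - τ (β (ψ x)) ∈ _ at b4
    rw [b2] at b4
    have b6 := Submodule.sub_mem _ b4 a4
    have b7 : tq (ψ x) - τ (β x) - (tq x - τ (β x)) = tq (ψ x) - tq x := by abel
    rw [b7] at b6
    have b8 := hNP _ b6
    rw [map_sub, b3, add_sub_cancel_left] at b8
    rw [b8]
    abel
  have hfd : ∀ x ∈ ball x₀ R2, ∀ ζ : Cm (q + r), tq ζ = 0 →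
      fderiv ℂ (fun x => F0 (ψ x)) x ζ = fderiv ℂ F0 x ζ := by
    intro x hx
    obtain ⟨a1, a2, a3, a4, a5, a6, a7⟩ := he2 x hx
    obtain ⟨b1, ⟨b2, b3⟩, b4, b5, b6⟩ := he1 _ (hz x hx)
    refine (hsheet x a7 ψ (hψan x hx) b6 ⟨N a, ?_⟩ ?_).self_of_nhds
    · filter_upwards [isOpen_ball.mem_nhds hx] with x' hx' using htψ x' hx'
    · filter_upwards [isOpen_ball.mem_nhds hx] with x' hx' using hβψ x' hx'
  have hψ1 : ψ x₁ = x₂ := by
    show I (β x₁, P (tq x₁) + a) = x₂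
    rw [hb, ha, add_sub_cancel]
    exact (he2 x₂ hx₂).2.2.1
  have hψ2 : ψ x₁' = x₂' := by
    show I (β x₁', P (tq x₁') + a) = x₂'
    rw [hb', ← ha', add_sub_cancel]
    exact (he2 x₂' hx₂').2.2.1
  -- constancy along the segment
  set d := x₁' - x₁ with hd
  have hdv : tq d = 0 := by
    have : tqc q r d = tqc q r x₁' - tqc q r x₁ := map_sub _ _ _
    rw [tqc_apply, tqc_apply, tqc_apply, ht1, sub_self] at this
    exact this
  have hseg : ∀ s ∈ Icc (0 : ℝ) 1, x₁ + s • d ∈ ball x₀ R2 := fun s hs =>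
    (convex_ball x₀ R2).add_smul_sub_mem hx₁ hx₁' hs
  have hder : ∀ s ∈ Icc (0 : ℝ) 1,
      HasDerivAt (fun s : ℝ => F0 (ψ (x₁ + s • d)) - F0 (x₁ + s • d)) 0 s := by
    intro s hs
    have hy := hseg s hs
    obtain ⟨a1, a2, a3, a4, a5, a6, a7⟩ := he2 _ hy
    have b1 : HasFDerivAt (fun x => F0 (ψ x)) (fderiv ℂ (fun x => F0 (ψ x)) (x₁ + s • d))
        (x₁ + s • d) := by
      have : AnalyticAt ℂ (fun x => F0 (ψ x)) (x₁ + s • d) :=
        AnalyticAt.fun_comp (he1 _ (hz _ hy)).2.2.2.1 (hψan _ hy)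
      exact this.differentiableAt.hasFDerivAt
    have b2 : HasFDerivAt F0 (fderiv ℂ F0 (x₁ + s • d)) (x₁ + s • d) :=
      a6.differentiableAt.hasFDerivAt
    have b3 := (b1.sub b2).restrictScalars ℝ
    have b4 : HasDerivAt (fun s : ℝ => x₁ + s • d) d s := by
      simpa using ((hasDerivAt_id s).smul_const d).const_add x₁
    have b5 := b3.comp_hasDerivAt s b4
    have b6 : ((fderiv ℂ (fun x => F0 (ψ x)) (x₁ + s • d) -
        fderiv ℂ F0 (x₁ + s • d)).restrictScalars ℝ) d = 0 := by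
      rw [ContinuousLinearMap.coe_restrictScalars', sub_apply, hfd _ hy d hdv, sub_self]
    rw [b6] at b5
    exact b5
  have hc := constant_of_has_deriv_right_zero
    (f := fun s : ℝ => F0 (ψ (x₁ + s • d)) - F0 (x₁ + s • d)) (a := 0) (b := 1)
    (fun s hs => (hder s hs).continuousAt.continuousWithinAt)
    (fun s hs => (hder s ⟨hs.1, hs.2.le⟩).hasDerivWithinAt)
  have h1 := hc 1 ⟨zero_le_one, le_refl 1⟩
  simp only [one_smul, zero_smul, add_zero, hd, add_sub_cancel] at h1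
  rw [hψ1, hψ2] at h1
  exact h1.symm

end coord

end Vale.Agent.P284.H501.Lcn
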