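import Vale.Agent.P284.H501.T.LcnF
import Vale.Agent.P284.H378.LF

/-!
# P284 (helper501), T3⁺, module T4a: from the generic fibres to all fibres
-/

open scoped Manifold ContDiff Topology InnerProductSpace ComplexConjugate
open Filter Set Metric

noncomputable section

set_option linter.unusedSectionVars false

namespace Vale.Agent.P284.H501.Lcn

open Vale.Agent.P272.K Vale.Agent.P284.H894.G Vale.Agent.P284.H894.V Vale.Agent.P284.H894.W
  Vale.Agent.P284.H213.Grp Vale.Agent.P284.H619 Vale.Agent.P284.H573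
  Vale.Agent.P284.H625 Vale.Agent.P284.H378 Vale.Agent.P284.H212 Vale.Agent.P284.H395
  Vale.Agent.P284.H494 Vale.Agent.P284.H650.T Vale.Agent.P284.H573.GG

section pure
variable {W : Type} [NormedAddCommGroup W] [InnerProductSpace ℂ W] [CompleteSpace W]

/-- the real part map `x ↦ x + J x` -/
def RL (J : W →SL[starRingEnd ℂ] W) : W →L[ℝ] W where
  toFun x := x + J x
  map_add' x y := by
    rw [map_add]
    abel
  map_smul' a x := by
    have h : J (a • x) = a • J x := by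
      have h1 : a • x = (a : ℂ) • x := (Complex.coe_smul a x).symm
      have h2 : a • J x = (a : ℂ) • J x := (Complex.coe_smul a (J x)).symm
      rw [h1, h2, map_smulₛₗ, Complex.conj_ofReal]
    rw [h, RingHom.id_apply, smul_add]
  cont := continuous_id.add J.continuous

lemma RL_apply (J : W →SL[starRingEnd ℂ] W) (x : W) : RL J x = x + J x := rfl

variable {V : Type} [NormedAddCommGroup V] [NormedSpace ℂ V] {J : W →SL[starRingEnd ℂ] W}

lemma deriv_RL {G : V → W} {x w : V} {a : ℝ} (hG : DifferentiableAt ℂ G (x + a • w)) :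
    HasDerivAt (fun a : ℝ => RL J (G (x + a • w))) (RL J (fderiv ℂ G (x + a • w) w)) a := by
  have b1 : HasDerivAt (fun a : ℝ => x + a • w) w a := by
    simpa using ((hasDerivAt_id a).smul_const w).const_add x
  have b2 := (hG.hasFDerivAt.restrictScalars ℝ).comp_hasDerivAt a b1
  exact ((RL J).hasFDerivAt.comp_hasDerivAt a b2)

/-- a real part which is locally constant along the slices near the points of a dense set is constant
along the slices -/
theorem slice_const {s k : ℕ} {G : Cm s × Cm k → W} {z₀ : Cm s × Cm k} {R : ℝ}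
    (hG : ∀ zz ∈ ball z₀ R, AnalyticAt ℂ G zz)
    (hD : ∀ zz ∈ ball z₀ R, ∃ᶠ zz' in 𝓝 zz, ∃ δ > 0, ∀ a : Cm k, ‖a‖ < δ →
      RL J (G (zz' + (0, a))) = RL J (G zz')) :
    ∀ zz ∈ ball z₀ R, ∀ zz' ∈ ball z₀ R, zz.1 = zz'.1 → RL J (G zz) = RL J (G zz') := by
  have key : ∀ zz ∈ ball z₀ R, ∀ w : Cm k, RL J (fderiv ℂ G zz (0, w)) = 0 := by
    intro zz hzz w
    by_contra hne
    have hc : ContinuousAt (fun zz => RL J (fderiv ℂ G zz (0, w))) zz := by
      have h1 : ContinuousAt (fun zz => fderiv ℂ G zz) zz := (hG zz hzz).fderiv.continuousAt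
      exact (RL J).continuous.continuousAt.comp (h1.clm_apply continuousAt_const)
    obtain ⟨zz', ⟨δ, hδ, h1⟩, h2, h3⟩ := ((hD zz hzz).and_eventually
      ((hc.eventually_ne hne).and (isOpen_ball.mem_nhds hzz))).exists
    apply h2
    have h4 : HasDerivAt (fun a : ℝ => RL J (G (zz' + a • ((0 : Cm s), w))))
        (RL J (fderiv ℂ G (zz' + (0 : ℝ) • ((0 : Cm s), w)) (0, w))) 0 :=
      deriv_RL (by rw [zero_smul, add_zero]; exact (hG zz' h3).differentiableAt)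
    rw [zero_smul, add_zero] at h4
    have h5 : (fun a : ℝ => RL J (G (zz' + a • ((0 : Cm s), w)))) =ᶠ[𝓝 0] fun _ => RL J (G zz') := by
      have h6 : Tendsto (fun a : ℝ => a • w) (𝓝 0) (𝓝 0) := by
        have : Continuous fun a : ℝ => a • w := by fun_prop
        have := this.tendsto 0
        rwa [zero_smul] at this
      filter_upwards [h6.eventually (ball_mem_nhds (0 : Cm k) hδ)] with a ha
      rw [Prod.smul_mk, smul_zero]
      exact h1 _ (mem_ball_zero_iff.1 ha)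
    exact h4.unique ((hasDerivAt_const (0 : ℝ) (RL J (G zz'))).congr_of_eventuallyEq h5)
  intro zz hzz zz' hzz' h1
  set w : Cm k := zz'.2 - zz.2 with hw
  have hzw : zz + ((0 : Cm s), w) = zz' := by
    refine Prod.ext ?_ ?_
    · rw [Prod.fst_add, add_zero, h1]
    · rw [Prod.snd_add, hw, add_sub_cancel]
  have hseg : ∀ a ∈ Icc (0 : ℝ) 1, zz + a • ((0 : Cm s), w) ∈ ball z₀ R := by
    intro a ha
    have := (convex_ball z₀ R).add_smul_sub_mem hzz hzz' ha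
    rwa [← hzw, add_sub_cancel_left] at this
  have hder : ∀ a ∈ Icc (0 : ℝ) 1,
      HasDerivAt (fun a : ℝ => RL J (G (zz + a • ((0 : Cm s), w)))) 0 a := by
    intro a ha
    have h2 := deriv_RL (J := J) (hG _ (hseg a ha)).differentiableAt
    rwa [key _ (hseg a ha)] at h2
  have hc := constant_of_has_deriv_right_zero
    (f := fun a : ℝ => RL J (G (zz + a • ((0 : Cm s), w)))) (a := 0) (b := 1)
    (fun a ha => (hder a ha).continuousAt.continuousWithinAt)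
    (fun a ha => (hder a ⟨ha.1, ha.2.le⟩).hasDerivWithinAt)
  have h2 := hc 1 ⟨zero_le_one, le_refl 1⟩
  simp only [one_smul, zero_smul, add_zero] at h2
  rw [hzw] at h2
  exact h2.symm

end pure

section
variable {n q r k s m : ℕ} {X E Γ W H : Type} [TopologicalSpace X] [ChartedSpace (Cm n) X]
  [TopologicalSpace E] [Group Γ] [MulAction Γ E]
  [NormedAddCommGroup W] [InnerProductSpace ℂ W] [CompleteSpace W] [NormedAddCommGroup H]
  [InnerProductSpace ℂ H] [CompleteSpace H] {p : E → X} {F : E → Cm q} {c : Γ → Cm q}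
  {v : E → Chart n X → (Fin (q + r) → Cm n) → H}
  {U : Γ → (H →ₗᵢ[ℂ] H)} {π : Γ →* (W ≃ₗᵢ[ℂ] W)} {Θ : E → Chart n X → (Cm n →L[ℂ] W)}
  {J : W →SL[starRingEnd ℂ] W} {T : E → E → W}
  {N : Cm k →L[ℂ] Cm q} {𝒢 : Set E} {z : E} {e : Chart n X} {b : Cm n → Cm (q + r)}
  {F0 : Cm (q + r) → W} {β : Cm (q + r) → Cm s} {γ : Cm s → H} {τ : Cm s → Cm q}

/-- near a good point over a regular value each displacement is constant along the leaves -/
theorem ext_loc (hG : IsGalois Γ p) (hE : LeafE s p F m v U π Θ N 𝒢) (hT : TwoPot p F Θ J T)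
    (hequi : ∀ (g : Γ) y e, Reg (n := n) p F y → At e (p y) → ∀ ξ ∈ VS p F y e,
      Θ (g • y) e ξ = π g (Θ y e ξ))
    (hRVo : IsOpen (RV n p F)) (hFc : Continuous F) {κ : Γ} (hκ : ∀ y, F (κ • y) = F y)
    {M : Set (Cm q)} (hM : IsMeagre M)
    (hgen : ∀ y ∈ 𝒢, F y ∈ RV n p F → F y ∉ M → ∀ᶠ y₂ in 𝓝 y, SL p v y y₂ →
      T y₂ (κ • y₂) = T y (κ • y))
    (hz : z ∈ 𝒢) (hzR : F z ∈ RV n p F) (hL : LC p F m v U π Θ N z e b F0 β γ τ) :
    ∃ V ∈ 𝓝 z, ∀ y ∈ V, ∀ y' ∈ V, SL p v y y' → T y (κ • y) = T y' (κ • y') := by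
  have hp := hG.cov
  have hRV : ∀ᶠ y in 𝓝 z, F y ∈ RV n p F := hFc.continuousAt.eventually (hRVo.mem_nhds hzR)
  have hreg : ∀ᶠ y in 𝓝 z, Reg (n := n) p F y := hRV.mono fun y h => h y rfl
  have hJP : JPot p F Θ z e (fun x => F0 (b x)) :=
    ⟨hL.F0an.comp hL.ban, hL.pot.mono fun y hy ξ hξ => (hy ξ hξ).symm⟩
  obtain ⟨a, ha, hd⟩ := disp_loc hG hT hequi hreg hzR hL.mem hJP hκ
  obtain ⟨P, hP⟩ := exists_P hE.Ninj
  obtain ⟨I, hI, hI1, hI2⟩ := exists_coord hE.dim hP hL.βan hL.trans hL.τan hL.leaf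
  obtain ⟨V, hV, hSL⟩ := sl_iff hp hE.form hL
  set x₀ := b (e (p z)) with hx₀
  set z₀ : Cm s × Cm k := (β x₀, P (tq x₀)) with hz₀
  have hFz : F z = tq x₀ := hL.t_eq.self_of_nhds
  have hI0 : I z₀ = x₀ := hI1.self_of_nhds
  have hIc : Tendsto I (𝓝 z₀) (𝓝 x₀) := by
    have := hI.continuousAt.tendsto
    rwa [hI0] at this
  set g : Cm (q + r) → W := fun x => π κ (F0 x) - F0 x + a (tq x) with hg
  have hgan : AnalyticAt ℂ g x₀ := by
    have h1 : AnalyticAt ℂ (fun x => π κ (F0 x)) x₀ :=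
      (((π κ).toContinuousLinearEquiv : W →L[ℂ] W).analyticAt _).comp hL.F0an
    have h2 : AnalyticAt ℂ (fun x : Cm (q + r) => a (tq x)) x₀ := by
      refine AnalyticAt.comp (g := a) (f := fun x : Cm (q + r) => tq x) ?_ ((tqc q r).analyticAt x₀)
      rw [← hFz]
      exact ha
    exact (h1.sub hL.F0an).add h2
  have hGan : AnalyticAt ℂ (fun zz => g (I zz)) z₀ := by
    refine AnalyticAt.fun_comp ?_ hI
    rw [hI0]
    exact hgan
  -- the good neighbourhood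
  set V₁ : Set E := {y | (y ∈ 𝒢 ∧ F y ∈ RV n p F ∧ LC p F m v U π Θ N y e b F0 β γ τ) ∧
    T y (κ • y) = RL J (g (b (e (p y)))) ∧ I (β (b (e (p y))), P (tq (b (e (p y))))) = b (e (p y)) ∧
      F y = tq (b (e (p y))) ∧ y ∈ V} with hV₁
  have hV₁n : V₁ ∈ 𝓝 z := by
    filter_upwards [hE.good.isOpen.mem_nhds hz, hRV, lc_near hp hL, hd, hL.t_eq,
      (tend_b hp hL).eventually hI1, hV] with y g1 g2 g3 g4 g5 g6 g7
    refine ⟨⟨g1, g2, g3⟩, ?_, g6, g5, g7⟩
    rw [g4, RL_apply, hg, g5]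
  obtain ⟨V₂, hV₂s, hV₂o, hzV₂⟩ := _root_.mem_nhds_iff.1 hV₁n
  have hxV : (fun y => b (e (p y))) '' V₂ ∈ 𝓝 x₀ := by
    rw [hx₀, ← map_b hp hL]
    exact image_mem_map (hV₂o.mem_nhds hzV₂)
  obtain ⟨R, hR, hball⟩ := Metric.eventually_nhds_iff_ball.1
    (hGan.eventually_analyticAt.and (hI2.and (hIc.eventually hxV)))
  have hmain := slice_const (J := J) (fun zz hzz => (hball zz hzz).1) (fun zz hzz => by
    obtain ⟨-, ⟨h1, h2⟩, y₁, hy₁, hy₁x⟩ := hball zz hzz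
    simp only at hy₁x
    obtain ⟨⟨-, -, hL₁⟩, -⟩ := hV₂s hy₁
    have hZ : Tendsto (fun y => ((β (b (e (p y))), P (tq (b (e (p y))))) : Cm s × Cm k)) (𝓝 y₁)
        (𝓝 zz) := by
      have h3 : Tendsto (fun x : Cm (q + r) => ((β x, P (tq x)) : Cm s × Cm k))
          (𝓝 (b (e (p y₁)))) (𝓝 (β (b (e (p y₁))), P (tq (b (e (p y₁)))))) := by
        rw [nhds_prod_eq]
        exact hL₁.βan.continuousAt.tendsto.prodMk
          ((P.continuous.comp (tqc q r).continuous).tendsto _)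
      have h4 := h3.comp (tend_b hp hL₁)
      have h5 : ((β (b (e (p y₁))), P (tq (b (e (p y₁))))) : Cm s × Cm k) = zz := by
        rw [hy₁x, h1, h2]
      rwa [h5] at h4
    rw [frequently_iff]
    intro O hO
    have h3 : F '' {y | y ∈ V₂ ∧ ((β (b (e (p y))), P (tq (b (e (p y))))) : Cm s × Cm k) ∈ O} ∈
        𝓝 (F y₁) := by
      rw [← hL₁.map_nhds hp]
      exact image_mem_map ((hV₂o.eventually_mem hy₁).and (hZ.eventually hO))
    obtain ⟨t₀, ht₀, y₂, ⟨hy₂, hy₂O⟩, rfl⟩ := (dense_of_mem_residual hM).inter_nhds_nonempty h3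
    refine ⟨_, hy₂O, ?_⟩
    obtain ⟨⟨k1, k2, hL₂⟩, k3, k4, k5, k6⟩ := hV₂s hy₂
    have h4 := hgen y₂ k1 k2 ht₀
    obtain ⟨δ, hδ, h5⟩ := ex_leaf hp hE hL₂ (inter_mem h4 (hV₂o.mem_nhds hy₂))
    refine ⟨δ, hδ, fun a' ha' => ?_⟩
    obtain ⟨y₃, ⟨h6, hy₃⟩, h7, h8⟩ := h5 a' ha'
    obtain ⟨-, l3, l4, l5, l6⟩ := hV₂s hy₃
    have h9 : β (b (e (p y₂))) = β (b (e (p y₃))) := ((hSL y₂ k6).2 y₃ l6).1 h7
    have h10 : ((β (b (e (p y₂))), P (tq (b (e (p y₂))))) : Cm s × Cm k) + (0, a') =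
        (β (b (e (p y₃))), P (tq (b (e (p y₃))))) := by
      rw [← k5, ← l5, h8, map_add, hP, ← h9, Prod.mk_add_mk, add_zero]
    rw [h10, l4, k4, ← l3, ← k3]
    exact h6 h7)
  have hZz : ∀ᶠ y in 𝓝 z, ((β (b (e (p y))), P (tq (b (e (p y))))) : Cm s × Cm k) ∈
      ball z₀ R := by
    have h3 : Tendsto (fun x : Cm (q + r) => ((β x, P (tq x)) : Cm s × Cm k)) (𝓝 x₀) (𝓝 z₀) := by
      rw [hz₀, nhds_prod_eq]
      exact hL.βan.continuousAt.tendsto.prodMk
        ((P.continuous.comp (tqc q r).continuous).tendsto _)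
    exact (h3.comp (tend_b hp hL)).eventually (ball_mem_nhds _ hR)
  refine ⟨_, inter_mem hV₁n hZz, ?_⟩
  rintro y ⟨⟨-, k3, k4, k5, k6⟩, hy⟩ y' ⟨⟨-, l3, l4, l5, l6⟩, hy'⟩ hs
  have h9 : β (b (e (p y))) = β (b (e (p y'))) := ((hSL y k6).2 y' l6).1 hs
  have h10 := hmain _ hy _ hy' h9
  rw [k4, l4] at h10
  rw [k3, l3, h10]

end

end Vale.Agent.P284.H501.Lcn
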